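import Vale.Agent.P096.H424.Defs

/-!
# P096: diagonal operators on the Hilbert sum of `n` copies
-/

open Set
open scoped InnerProductSpace

namespace Vale.Agent.P096.H424

universe u

variable {H : Type u} [NormedAddCommGroup H] [InnerProductSpace ℂ H] [CompleteSpace H] {n : ℕ}

/-- the Hilbert sum of `n` copies of `H` -/
abbrev Sm (n : ℕ) (H : Type u) [NormedAddCommGroup H] [InnerProductSpace ℂ H] : Type u :=
  PiLp 2 (fun _ : Fin n => H)

omit [CompleteSpace H] in
theorem norm_sq_sm (ξ : Sm n H) : ‖ξ‖ ^ 2 = ∑ i, ‖ξ i‖ ^ 2 := PiLp.norm_sq_eq_of_L2 _ ξ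

omit [CompleteSpace H] in
theorem norm_coord_le (ξ : Sm n H) (i : Fin n) : ‖ξ i‖ ≤ ‖ξ‖ := by
  refine (sq_le_sq₀ (norm_nonneg _) (norm_nonneg _)).1 ?_
  rw [norm_sq_sm]
  exact Finset.single_le_sum (f := fun i => ‖ξ i‖ ^ 2) (fun j _ => sq_nonneg _) (Finset.mem_univ i)

/-- the diagonal operator -/
noncomputable def diagF (f : Fin n → (H →L[ℂ] H)) : Sm n H →L[ℂ] Sm n H :=
  LinearMap.mkContinuous
    { toFun := fun ξ => WithLp.toLp 2 fun i => f i (ξ i)
      map_add' := fun ξ η => by
        ext i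
        simp
      map_smul' := fun c ξ => by
        ext i
        simp } (∑ i, ‖f i‖) (fun ξ => by
      have h : ∀ i, ‖f i (ξ i)‖ ≤ (∑ i, ‖f i‖) * ‖ξ i‖ := fun i =>
        ((f i).le_opNorm _).trans (mul_le_mul_of_nonneg_right
          (Finset.single_le_sum (f := fun i => ‖f i‖) (fun j _ => norm_nonneg _)
            (Finset.mem_univ i)) (norm_nonneg _))
      have h0 : 0 ≤ ∑ i, ‖f i‖ := Finset.sum_nonneg fun i _ => norm_nonneg _
      refine (sq_le_sq₀ (norm_nonneg _) (by positivity)).1 ?_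
      rw [mul_pow, norm_sq_sm, norm_sq_sm, Finset.mul_sum]
      refine Finset.sum_le_sum fun i _ => ?_
      rw [← mul_pow]
      exact pow_le_pow_left₀ (norm_nonneg _) (h i) 2)

omit [CompleteSpace H] in
@[simp] theorem diagF_apply (f : Fin n → (H →L[ℂ] H)) (ξ : Sm n H) (i : Fin n) :
    diagF f ξ i = f i (ξ i) := rfl

omit [CompleteSpace H] in
theorem norm_diagF_le {f : Fin n → (H →L[ℂ] H)} {r : ℝ} (hr : 0 ≤ r) (h : ∀ i, ‖f i‖ ≤ r) :
    ‖diagF f‖ ≤ r := by
  refine ContinuousLinearMap.opNorm_le_bound _ hr fun ξ => ?_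
  refine (sq_le_sq₀ (norm_nonneg _) (by positivity)).1 ?_
  rw [mul_pow, norm_sq_sm, norm_sq_sm, Finset.mul_sum]
  refine Finset.sum_le_sum fun i _ => ?_
  rw [← mul_pow]
  refine pow_le_pow_left₀ (norm_nonneg _) ?_ 2
  exact ((f i).le_opNorm _).trans (mul_le_mul_of_nonneg_right (h i) (norm_nonneg _))

theorem diagF_star (f : Fin n → (H →L[ℂ] H)) : star (diagF f) = diagF (fun i => star (f i)) := by
  rw [ContinuousLinearMap.star_eq_adjoint]
  symm
  rw [ContinuousLinearMap.eq_adjoint_iff]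
  intro ξ η
  rw [PiLp.inner_apply, PiLp.inner_apply]
  refine Finset.sum_congr rfl fun i _ => ?_
  rw [diagF_apply, diagF_apply, ContinuousLinearMap.star_eq_adjoint,
    ContinuousLinearMap.adjoint_inner_left]

/-- diagonal star homomorphism built from star homomorphisms -/
noncomputable def diagHom {D : Type*} [NonUnitalCStarAlgebra D]
    (π : Fin n → (D →⋆ₙₐ[ℂ] (H →L[ℂ] H))) : D →⋆ₙₐ[ℂ] (Sm n H →L[ℂ] Sm n H) where
  toFun a := diagF fun i => π i a
  map_smul' c a := by
    ext ξ i
    simp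
  map_zero' := by
    ext ξ i
    simp
  map_add' a b := by
    ext ξ i
    simp
  map_mul' a b := by
    ext ξ i
    simp
  map_star' a := by
    rw [diagF_star]
    congr 1
    funext i
    exact map_star (π i) a

theorem diagHom_apply {D : Type*} [NonUnitalCStarAlgebra D]
    (π : Fin n → (D →⋆ₙₐ[ℂ] (H →L[ℂ] H))) (a : D) : diagHom π a = diagF fun i => π i a := rfl

/-- the amplification -/
noncomputable def amp (n : ℕ) (a : H →L[ℂ] H) : Sm n H →L[ℂ] Sm n H := diagF fun _ => a

omit [CompleteSpace H] in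
@[simp] theorem amp_apply (a : H →L[ℂ] H) (ξ : Sm n H) (i : Fin n) :
    amp n a ξ i = a (ξ i) := rfl

/-- the amplification, as a star homomorphism -/
noncomputable def ampHom (n : ℕ) (H : Type u) [NormedAddCommGroup H] [InnerProductSpace ℂ H]
    [CompleteSpace H] : (H →L[ℂ] H) →⋆ₙₐ[ℂ] (Sm n H →L[ℂ] Sm n H) :=
  diagHom fun _ => NonUnitalStarAlgHom.id ℂ (H →L[ℂ] H)

theorem ampHom_apply (a : H →L[ℂ] H) : ampHom n H a = amp n a := rfl

/-- the inclusion of a coordinate -/
noncomputable def inc (j : Fin n) : H →L[ℂ] Sm n H :=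
  LinearMap.mkContinuous
    { toFun := fun x => PiLp.single 2 j x
      map_add' := fun x y => by
        ext i
        by_cases h : i = j
        · subst h; simp
        · simp [h]
      map_smul' := fun c x => by
        ext i
        by_cases h : i = j
        · subst h; simp
        · simp [h] } 1 (fun x => by
      rw [one_mul]
      exact (PiLp.norm_single (p := 2) (β := fun _ : Fin n => H) j x).le)

omit [CompleteSpace H] in
@[simp] theorem inc_same (j : Fin n) (x : H) : inc j x j = x :=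
  PiLp.single_eq_same (p := 2) (β := fun _ : Fin n => H) j x

omit [CompleteSpace H] in
theorem inc_ne {i j : Fin n} (h : i ≠ j) (x : H) : inc j x i = 0 :=
  PiLp.single_eq_of_ne (p := 2) (β := fun _ : Fin n => H) h x

omit [CompleteSpace H] in
theorem norm_inc (j : Fin n) (x : H) : ‖inc j x‖ = ‖x‖ :=
  PiLp.norm_single (p := 2) (β := fun _ : Fin n => H) j x

omit [CompleteSpace H] in
theorem sum_inc (ξ : Sm n H) : ∑ j, inc j (ξ j) = ξ := by
  ext i
  rw [WithLp.ofLp_sum, Finset.sum_apply]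
  rw [Finset.sum_eq_single i (fun j _ hj => inc_ne (Ne.symm hj) _)
    (fun h => absurd (Finset.mem_univ i) h)]
  exact inc_same i _

/-- the matrix entries -/
noncomputable def ent (T : Sm n H →L[ℂ] Sm n H) (i j : Fin n) : H →L[ℂ] H :=
  (PiLp.proj 2 (fun _ : Fin n => H) i : Sm n H →L[ℂ] H) ∘L T ∘L inc j

omit [CompleteSpace H] in
@[simp] theorem ent_apply (T : Sm n H →L[ℂ] Sm n H) (i j : Fin n) (x : H) :
    ent T i j x = T (inc j x) i := rfl

omit [CompleteSpace H] in
theorem apply_eq_sum (T : Sm n H →L[ℂ] Sm n H) (ξ : Sm n H) (i : Fin n) :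
    T ξ i = ∑ j, ent T i j (ξ j) := by
  conv_lhs => rw [← sum_inc ξ]
  rw [map_sum, WithLp.ofLp_sum, Finset.sum_apply]
  rfl

omit [CompleteSpace H] in
theorem diagF_inc (f : Fin n → (H →L[ℂ] H)) (j : Fin n) (x : H) :
    diagF f (inc j x) = inc j (f j x) := by
  ext i
  rw [diagF_apply]
  by_cases h : i = j
  · subst h; rw [inc_same, inc_same]
  · rw [inc_ne h, inc_ne h, map_zero]

omit [CompleteSpace H] in
/-- matrices over a commutant are the commutant of the amplification -/
theorem mem_matrices_iff (S : Set (H →L[ℂ] H)) (T : Sm n H →L[ℂ] Sm n H) :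
    T ∈ matrices n (centralizer S) ↔ ∀ s ∈ S, amp n s * T = T * amp n s := by
  constructor
  · rintro ⟨a, ha, hT⟩ s hs
    ext ξ i
    change amp n s (T ξ) i = T (amp n s ξ) i
    rw [amp_apply, hT, hT, map_sum]
    refine Finset.sum_congr rfl fun j _ => ?_
    rw [amp_apply]
    exact congrArg (fun R : H →L[ℂ] H => R (ξ j)) (ha i j s hs)
  · intro h
    refine ⟨ent T, fun i j s hs => ?_, fun ξ i => apply_eq_sum T ξ i⟩
    ext x
    change s (T (inc j x) i) = T (inc j (s x)) i
    have h1 := congrArg (fun R : Sm n H →L[ℂ] Sm n H => R (inc j x) i) (h s hs)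
    have h2 : amp n s (inc j x) = inc j (s x) := diagF_inc _ j x
    change amp n s (T (inc j x)) i = T (amp n s (inc j x)) i at h1
    rwa [h2] at h1

end Vale.Agent.P096.H424
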