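import Vale.Agent.P096.MathlibUsed
import Mathlib.Analysis.InnerProductSpace.PiL2
import Mathlib.Analysis.CStarAlgebra.ContinuousLinearMap
import Mathlib.Topology.Algebra.NonUnitalStarAlgebra

/-!
# P096: distances, near inclusions, matrices over an algebra of operators
-/

namespace Vale.Agent.P096.H424

variable {H : Type*} [NormedAddCommGroup H] [InnerProductSpace ℂ H] [CompleteSpace H]

/-- The distance `d(A, B)`: the Hausdorff distance, in operator norm, of `{x ∈ A : ‖x‖ ≤ 1}` and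
`{y ∈ B : ‖y‖ ≤ 1}` (the formula of the Kadison-Kastler distance, for arbitrary sets). -/
noncomputable def ballDist (A B : Set (H →L[ℂ] H)) : ℝ :=
  max (⨆ x : {x : H →L[ℂ] H // x ∈ A ∧ ‖x‖ ≤ 1}, ⨅ y : {y : H →L[ℂ] H // y ∈ B ∧ ‖y‖ ≤ 1},
      ‖(x : H →L[ℂ] H) - (y : H →L[ℂ] H)‖)
    (⨆ y : {y : H →L[ℂ] H // y ∈ B ∧ ‖y‖ ≤ 1}, ⨅ x : {x : H →L[ℂ] H // x ∈ A ∧ ‖x‖ ≤ 1},
      ‖(x : H →L[ℂ] H) - (y : H →L[ℂ] H)‖)

/-- The near inclusion `A ⊆_γ B`: each `x ∈ A` with `‖x‖ ≤ 1` is within `γ` of some `y ∈ B`. -/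
def NearlyIn (A B : Set (H →L[ℂ] H)) (γ : ℝ) : Prop :=
  ∀ x ∈ A, ‖x‖ ≤ 1 → ∃ y ∈ B, ‖x - y‖ ≤ γ

/-- `u A u* = B`. -/
def Conjugates (u : H →L[ℂ] H) (A B : Set (H →L[ℂ] H)) : Prop :=
  (fun x => u * x * star u) '' A = B

/-- The operators on the Hilbert sum of `n` copies of `H` given by the `n × n` matrices with
entries in `A`. -/
def matrices (n : ℕ) (A : Set (H →L[ℂ] H)) :
    Set (PiLp 2 (fun _ : Fin n => H) →L[ℂ] PiLp 2 (fun _ : Fin n => H)) :=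
  {T | ∃ a : Fin n → Fin n → (H →L[ℂ] H), (∀ i j, a i j ∈ A) ∧
    ∀ (ξ : PiLp 2 (fun _ : Fin n => H)) (i : Fin n), T ξ i = ∑ j, a i j (ξ j)}

open Set Filter Topology

universe u v

/-- `*`-algebras of bounded operators on `H`, norm closed or not, containing `1` or not -/
abbrev OpAlg (H : Type u) [NormedAddCommGroup H] [InnerProductSpace ℂ H] [CompleteSpace H] :
    Type u := NonUnitalStarSubalgebra ℂ (H →L[ℂ] H)

section

variable {H : Type u} [NormedAddCommGroup H] [InnerProductSpace ℂ H] [CompleteSpace H]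

/-- the commutant `A'` -/
def cm (A : OpAlg H) : Set (H →L[ℂ] H) := centralizer (A : Set (H →L[ℂ] H))

/-- the double commutant `A''` -/
def dcm (A : OpAlg H) : Set (H →L[ℂ] H) := centralizer (centralizer (A : Set (H →L[ℂ] H)))

end

section

variable (H : Type u) [NormedAddCommGroup H] [InnerProductSpace ℂ H] [CompleteSpace H] (C : ℝ)

/-- If `C d(A, B) ≤ 1`, one unitary `u` with `‖u - 1‖ ≤ C d(A, B)` satisfies `u A' u* = B'` and
`u A'' u* = B''`. -/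
def LinearConjugacy : Prop :=
  ∀ A B : OpAlg H, C * ballDist (A : Set (H →L[ℂ] H)) B ≤ 1 →
    ∃ u ∈ unitary (H →L[ℂ] H), ‖u - 1‖ ≤ C * ballDist (A : Set (H →L[ℂ] H)) B ∧
      Conjugates u (cm A) (cm B) ∧ Conjugates u (dcm A) (dcm B)

/-- `d(A', B') ≤ C d(A, B)` and `d(A'', B'') ≤ C d(A, B)`. -/
def CloseCommutants : Prop :=
  ∀ A B : OpAlg H, ballDist (cm A) (cm B) ≤ C * ballDist (A : Set (H →L[ℂ] H)) B ∧
    ballDist (dcm A) (dcm B) ≤ C * ballDist (A : Set (H →L[ℂ] H)) B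

/-- If `A` is nearly contained in `B` with constant `γ`, then for all `n` so are the `n × n`
matrices over `A''` in those over `B''`, and the matrices over `B'` in those over `A'`, with
constant `C γ`. -/
def CompletelyBoundedInclusions : Prop :=
  ∀ (A B : OpAlg H) (γ : ℝ), NearlyIn (A : Set (H →L[ℂ] H)) B γ → ∀ n : ℕ,
    NearlyIn (matrices n (dcm A)) (matrices n (dcm B)) (C * γ) ∧
    NearlyIn (matrices n (cm B)) (matrices n (cm A)) (C * γ)

/-- An operator commuting with `A` up to `ε` is within `C ε` of an element of `A'`. -/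
def DistanceToCommutant : Prop :=
  ∀ (A : OpAlg H) (x : H →L[ℂ] H) (ε : ℝ), 0 ≤ ε → (∀ a ∈ A, ‖x * a - a * x‖ ≤ ε * ‖a‖) →
    ∃ y ∈ cm A, ‖x - y‖ ≤ C * ε

/-- Representations `π`, `ρ` of a C*-algebra on `H` with `‖π(a) - ρ(a)‖ ≤ ε ‖a‖`, `C ε ≤ 1`, are
conjugate by a unitary `u` with `‖u - 1‖ ≤ C ε`. -/
def CloseRepresentations : Prop :=
  ∀ (D : Type v) [NonUnitalCStarAlgebra D] (π ρ : D →⋆ₙₐ[ℂ] (H →L[ℂ] H)) (ε : ℝ),
    0 ≤ ε → C * ε ≤ 1 → (∀ a, ‖π a - ρ a‖ ≤ ε * ‖a‖) →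
      ∃ u ∈ unitary (H →L[ℂ] H), ‖u - 1‖ ≤ C * ε ∧ ∀ a, ρ a = u * π a * star u

/-- For a path `t ↦ A t`, `0 ≤ t ≤ 1`, continuous in `d`, there is a norm-continuous path of
unitaries `u t` with `u 0 = 1`, `u t (A 0)' (u t)* = (A t)'` and `u t (A 0)'' (u t)* = (A t)''`. -/
def PathLifting : Prop :=
  ∀ A : unitInterval → OpAlg H,
    (∀ s, Tendsto (fun t => ballDist (A s : Set (H →L[ℂ] H)) (A t)) (𝓝 s) (𝓝 0)) →
      ∃ u : unitInterval → (H →L[ℂ] H), Continuous u ∧ u 0 = 1 ∧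
        ∀ t, u t ∈ unitary (H →L[ℂ] H) ∧ Conjugates (u t) (cm (A 0)) (cm (A t)) ∧
          Conjugates (u t) (dcm (A 0)) (dcm (A t))

end

end Vale.Agent.P096.H424
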