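import Vale.Agent.P096.H424.Amp
import Vale.Agent.P104.H409.Deriv

/-!
# P096: distance to the commutant, near inclusions of commutants and of matrix algebras
-/

open Set
open scoped InnerProductSpace

namespace Vale.Agent.P096.H424

universe u v

/-- the constant of the distance estimate -/
noncomputable def KD : ℝ := 10 ^ 280

theorem one_le_KD : 1 ≤ KD := one_le_pow₀ (by norm_num)

theorem KD_pos : 0 < KD := lt_of_lt_of_le one_pos one_le_KD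

section

variable {H : Type u} [NormedAddCommGroup H] [InnerProductSpace ℂ H] [CompleteSpace H]
  {G : Type v} [NormedAddCommGroup G] [InnerProductSpace ℂ G] [CompleteSpace G]

/-- the distance estimate for a (possibly non-closed, non-unital) `*`-algebra of operators and a
representation -/
theorem dist_sub (A : NonUnitalStarSubalgebra ℂ (H →L[ℂ] H))
    (φ : (H →L[ℂ] H) →⋆ₙₐ[ℂ] (G →L[ℂ] G)) (T : G →L[ℂ] G) {ε : ℝ} (hε : 0 ≤ ε)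
    (h : ∀ a ∈ A, ‖φ a * T - T * φ a‖ ≤ ε * ‖a‖) :
    ∃ T' : G →L[ℂ] G, (∀ a ∈ A, φ a * T' = T' * φ a) ∧ ‖T - T'‖ ≤ KD * ε := by
  let B : NonUnitalStarSubalgebra ℂ (H →L[ℂ] H) := A.topologicalClosure
  have hBc : IsClosed (B : Set (H →L[ℂ] H)) := A.isClosed_topologicalClosure
  let _ : NonUnitalCStarAlgebra B :=
    NonUnitalStarSubalgebra.nonUnitalCStarAlgebra B (h_closed := hBc)
  have hφ : Continuous φ := AddMonoidHomClass.continuous_of_bound φ 1 fun a => by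
    rw [one_mul]
    exact NonUnitalStarAlgHom.norm_apply_le φ a
  have hB : ∀ b ∈ B, ‖φ b * T - T * φ b‖ ≤ ε * ‖b‖ := by
    intro b hb
    have hb' : b ∈ closure (A : Set (H →L[ℂ] H)) := hb
    have hcl : IsClosed {b : H →L[ℂ] H | ‖φ b * T - T * φ b‖ ≤ ε * ‖b‖} :=
      isClosed_le (by fun_prop) (by fun_prop)
    exact closure_minimal (s := (A : Set (H →L[ℂ] H))) (fun a ha => h a ha) hcl hb'
  obtain ⟨T', h1, h2⟩ := Vale.Agent.P104.H409.dist_bound (A := B)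
    (φ.comp (NonUnitalStarSubalgebraClass.subtype B)) T hε (fun b => hB b b.2)
  exact ⟨T', fun a ha => h1 ⟨a, A.le_topologicalClosure ha⟩, h2⟩

omit [CompleteSpace H] in
theorem NearlyIn.nonneg {A B : Set (H →L[ℂ] H)} {γ : ℝ} (h : NearlyIn A B γ) (h0 : 0 ∈ A) :
    0 ≤ γ := by
  obtain ⟨y, -, hy⟩ := h 0 h0 (by simp)
  exact (norm_nonneg _).trans hy

omit [CompleteSpace H] in
theorem NearlyIn.mono {A B : Set (H →L[ℂ] H)} {γ γ' : ℝ} (h : NearlyIn A B γ) (hγ : γ ≤ γ') :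
    NearlyIn A B γ' := fun x hx hx1 => by
  obtain ⟨y, hy, hxy⟩ := h x hx hx1
  exact ⟨y, hy, hxy.trans hγ⟩

theorem NearlyIn.scale {A B : Set (H →L[ℂ] H)} {γ : ℝ} (h : NearlyIn A B γ)
    (hA : ∀ (c : ℂ), ∀ x ∈ A, c • x ∈ A) (hB : ∀ (c : ℂ), ∀ y ∈ B, c • y ∈ B) (hB0 : 0 ∈ B)
    (x : H →L[ℂ] H) (hx : x ∈ A) : ∃ y ∈ B, ‖x - y‖ ≤ γ * ‖x‖ := by
  rcases (norm_nonneg x).eq_or_lt with h0 | h0
  · refine ⟨0, hB0, ?_⟩
    rw [sub_zero, ← h0, mul_zero]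
  · have hc : ((‖x‖ : ℝ) : ℂ) ≠ 0 := by exact_mod_cast h0.ne'
    have hb : ‖((‖x‖ : ℝ) : ℂ)⁻¹ • x‖ ≤ 1 := by
      rw [norm_smul, norm_inv, Complex.norm_real, norm_norm, inv_mul_cancel₀ h0.ne']
    obtain ⟨y, hy, hxy⟩ := h _ (hA _ x hx) hb
    refine ⟨((‖x‖ : ℝ) : ℂ) • y, hB _ y hy, ?_⟩
    have h2 : x - ((‖x‖ : ℝ) : ℂ) • y = ((‖x‖ : ℝ) : ℂ) • (((‖x‖ : ℝ) : ℂ)⁻¹ • x - y) := by
      rw [smul_sub, smul_smul, mul_inv_cancel₀ hc, one_smul]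
    rw [h2, norm_smul, Complex.norm_real, norm_norm, mul_comm]
    exact mul_le_mul_of_nonneg_right hxy h0.le

theorem NearlyIn.normalise {A B : Set (H →L[ℂ] H)} {γ : ℝ} (h : NearlyIn A B γ)
    (hB : ∀ (c : ℂ), ∀ y ∈ B, c • y ∈ B) (x : H →L[ℂ] H) (hx : x ∈ A) (hx1 : ‖x‖ ≤ 1) :
    ∃ y ∈ B, ‖y‖ ≤ 1 ∧ ‖x - y‖ ≤ 2 * γ := by
  obtain ⟨y, hy, hxy⟩ := h x hx hx1
  have hγ : 0 ≤ γ := (norm_nonneg _).trans hxy
  by_cases h1 : ‖y‖ ≤ 1
  · exact ⟨y, hy, h1, by linarith⟩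
  · push Not at h1
    have h0 : 0 < ‖y‖ := by linarith
    refine ⟨((‖y‖⁻¹ : ℝ) : ℂ) • y, hB _ y hy, ?_, ?_⟩
    · rw [norm_smul, Complex.norm_real, norm_inv, norm_norm, inv_mul_cancel₀ h0.ne']
    · have h2 : ‖y - ((‖y‖⁻¹ : ℝ) : ℂ) • y‖ = ‖y‖ - 1 := by
        have h3 : y - ((‖y‖⁻¹ : ℝ) : ℂ) • y = ((1 - ‖y‖⁻¹ : ℝ) : ℂ) • y := by
          rw [Complex.ofReal_sub, Complex.ofReal_one, sub_smul, one_smul]
        have h4 : 0 ≤ 1 - ‖y‖⁻¹ := sub_nonneg.2 (inv_le_one_of_one_le₀ h1.le)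
        rw [h3, norm_smul, Complex.norm_real, Real.norm_of_nonneg h4, sub_mul, one_mul,
          inv_mul_cancel₀ h0.ne']
      have h5 : ‖y‖ ≤ ‖x‖ + ‖x - y‖ := by
        have := norm_sub_le x (x - y)
        rwa [sub_sub_cancel] at this
      calc ‖x - ((‖y‖⁻¹ : ℝ) : ℂ) • y‖ = ‖(x - y) + (y - ((‖y‖⁻¹ : ℝ) : ℂ) • y)‖ := by
            rw [sub_add_sub_cancel]
        _ ≤ ‖x - y‖ + ‖y - ((‖y‖⁻¹ : ℝ) : ℂ) • y‖ := norm_add_le _ _
        _ ≤ 2 * γ := by rw [h2]; linarith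

/-- operators commuting with `φ(B)` are close to operators commuting with `φ(A)` if `A` is nearly
contained in `B` -/
theorem near_rep (A B : NonUnitalStarSubalgebra ℂ (H →L[ℂ] H)) {γ : ℝ}
    (h : NearlyIn (A : Set (H →L[ℂ] H)) B γ) (φ : (H →L[ℂ] H) →⋆ₙₐ[ℂ] (G →L[ℂ] G))
    (T : G →L[ℂ] G) (hT : ∀ b ∈ B, φ b * T = T * φ b) :
    ∃ T' : G →L[ℂ] G, (∀ a ∈ A, φ a * T' = T' * φ a) ∧ ‖T - T'‖ ≤ KD * (2 * γ * ‖T‖) := by
  have hγ : 0 ≤ γ := h.nonneg (zero_mem A)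
  refine dist_sub A φ T (by positivity) fun a ha => ?_
  obtain ⟨b, hb, hab⟩ := h.scale (fun c x hx => SMulMemClass.smul_mem c hx)
    (fun c x hx => SMulMemClass.smul_mem c hx) (zero_mem B) a ha
  have h1 : φ a * T - T * φ a = φ (a - b) * T - T * φ (a - b) := by
    rw [map_sub, sub_mul, mul_sub, hT b hb]
    abel
  have h2 : ‖φ (a - b)‖ ≤ γ * ‖a‖ := (NonUnitalStarAlgHom.norm_apply_le φ _).trans hab
  rw [h1]
  calc ‖φ (a - b) * T - T * φ (a - b)‖ ≤ ‖φ (a - b) * T‖ + ‖T * φ (a - b)‖ := norm_sub_le _ _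
    _ ≤ ‖φ (a - b)‖ * ‖T‖ + ‖T‖ * ‖φ (a - b)‖ := add_le_add (norm_mul_le _ _) (norm_mul_le _ _)
    _ ≤ (γ * ‖a‖) * ‖T‖ + ‖T‖ * (γ * ‖a‖) := by gcongr
    _ = 2 * γ * ‖T‖ * ‖a‖ := by ring

theorem bound_one {γ t : ℝ} (hγ : 0 ≤ γ) (ht : t ≤ 1) : KD * (2 * γ * t) ≤ 2 * KD * γ := by
  have h1 : γ * t ≤ γ * 1 := mul_le_mul_of_nonneg_left ht hγ
  have h2 := mul_le_mul_of_nonneg_left h1 (mul_pos two_pos KD_pos).le
  calc KD * (2 * γ * t) = 2 * KD * (γ * t) := by ring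
    _ ≤ 2 * KD * (γ * 1) := h2
    _ = 2 * KD * γ := by ring

/-- near inclusions pass to commutants -/
theorem near_commutant (A B : NonUnitalStarSubalgebra ℂ (H →L[ℂ] H)) {γ : ℝ}
    (h : NearlyIn (A : Set (H →L[ℂ] H)) B γ) :
    NearlyIn (centralizer (B : Set (H →L[ℂ] H))) (centralizer (A : Set (H →L[ℂ] H)))
      (2 * KD * γ) := by
  intro x hx hx1
  obtain ⟨y, h1, h2⟩ := near_rep A B h (NonUnitalStarAlgHom.id ℂ (H →L[ℂ] H)) x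
    (fun b hb => hx b hb)
  exact ⟨y, fun a ha => h1 a ha, h2.trans (bound_one (h.nonneg (zero_mem A)) hx1)⟩

/-- near inclusions pass to matrices over the commutants -/
theorem near_matrices (A B : NonUnitalStarSubalgebra ℂ (H →L[ℂ] H)) {γ : ℝ}
    (h : NearlyIn (A : Set (H →L[ℂ] H)) B γ) (n : ℕ) :
    NearlyIn (matrices n (centralizer (B : Set (H →L[ℂ] H))))
      (matrices n (centralizer (A : Set (H →L[ℂ] H)))) (2 * KD * γ) := by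
  intro x hx hx1
  obtain ⟨y, h1, h2⟩ := near_rep A B h (ampHom n H) x
    (fun b hb => (mem_matrices_iff _ x).1 hx b hb)
  exact ⟨y, (mem_matrices_iff _ y).2 fun a ha => h1 a ha,
    h2.trans (bound_one (h.nonneg (zero_mem A)) hx1)⟩

/-- the commutant as a star subalgebra -/
noncomputable def comm (A : NonUnitalStarSubalgebra ℂ (H →L[ℂ] H)) : NonUnitalStarSubalgebra ℂ (H →L[ℂ] H) :=
  NonUnitalStarSubalgebra.centralizer ℂ (A : Set (H →L[ℂ] H))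

theorem union_star (A : NonUnitalStarSubalgebra ℂ (H →L[ℂ] H)) :
    (A : Set (H →L[ℂ] H)) ∪ star (A : Set (H →L[ℂ] H)) = A := by
  refine union_eq_self_of_subset_right fun x hx => ?_
  have h1 : star x ∈ A := hx
  have h2 := star_mem h1
  rwa [star_star] at h2

theorem coe_comm (A : NonUnitalStarSubalgebra ℂ (H →L[ℂ] H)) :
    (comm A : Set (H →L[ℂ] H)) = centralizer (A : Set (H →L[ℂ] H)) := by
  rw [comm, NonUnitalStarSubalgebra.coe_centralizer, union_star]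

/-- near inclusions pass to double commutants -/
theorem near_bicommutant (A B : NonUnitalStarSubalgebra ℂ (H →L[ℂ] H)) {γ : ℝ}
    (h : NearlyIn (A : Set (H →L[ℂ] H)) B γ) :
    NearlyIn (centralizer (centralizer (A : Set (H →L[ℂ] H))))
      (centralizer (centralizer (B : Set (H →L[ℂ] H)))) (2 * KD * (2 * KD * γ)) := by
  have h1 := near_commutant A B h
  rw [← coe_comm A, ← coe_comm B] at h1 ⊢
  exact near_commutant (comm B) (comm A) h1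

theorem near_bimatrices (A B : NonUnitalStarSubalgebra ℂ (H →L[ℂ] H)) {γ : ℝ}
    (h : NearlyIn (A : Set (H →L[ℂ] H)) B γ) (n : ℕ) :
    NearlyIn (matrices n (centralizer (centralizer (A : Set (H →L[ℂ] H)))))
      (matrices n (centralizer (centralizer (B : Set (H →L[ℂ] H))))) (2 * KD * (2 * KD * γ)) := by
  have h1 := near_commutant A B h
  rw [← coe_comm A, ← coe_comm B] at h1 ⊢
  exact near_matrices (comm B) (comm A) h1 n

end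

/-! ### the distance of the unit balls -/

section

variable {H : Type u} [NormedAddCommGroup H] [InnerProductSpace ℂ H] [CompleteSpace H]
  {A B : Set (H →L[ℂ] H)} {δ : ℝ}

omit [CompleteSpace H] in
theorem bdd_l (B : Set (H →L[ℂ] H)) (x : H →L[ℂ] H) :
    BddBelow (range fun y : {y : H →L[ℂ] H // y ∈ B ∧ ‖y‖ ≤ 1} => ‖x - (y : H →L[ℂ] H)‖) :=
  ⟨0, by rintro _ ⟨y, rfl⟩; exact norm_nonneg _⟩

omit [CompleteSpace H] in
theorem bdd_r (A : Set (H →L[ℂ] H)) (y : H →L[ℂ] H) :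
    BddBelow (range fun x : {x : H →L[ℂ] H // x ∈ A ∧ ‖x‖ ≤ 1} => ‖(x : H →L[ℂ] H) - y‖) :=
  ⟨0, by rintro _ ⟨y, rfl⟩; exact norm_nonneg _⟩

omit [CompleteSpace H] in
theorem near_of_ballDist_lt (hA : (0 : H →L[ℂ] H) ∈ A) (hB : (0 : H →L[ℂ] H) ∈ B)
    (h : ballDist A B < δ) : NearlyIn A B δ ∧ NearlyIn B A δ := by
  have h1 := lt_of_le_of_lt (le_max_left _ _) h
  have h2 := lt_of_le_of_lt (le_max_right _ _) h
  have iA : Nonempty {x : H →L[ℂ] H // x ∈ A ∧ ‖x‖ ≤ 1} := ⟨⟨0, hA, by simp⟩⟩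
  have iB : Nonempty {x : H →L[ℂ] H // x ∈ B ∧ ‖x‖ ≤ 1} := ⟨⟨0, hB, by simp⟩⟩
  constructor
  · intro x hx hx1
    have hb : BddAbove (range fun x : {x : H →L[ℂ] H // x ∈ A ∧ ‖x‖ ≤ 1} =>
        ⨅ y : {y : H →L[ℂ] H // y ∈ B ∧ ‖y‖ ≤ 1}, ‖(x : H →L[ℂ] H) - (y : H →L[ℂ] H)‖) := by
      refine ⟨1, ?_⟩
      rintro _ ⟨x, rfl⟩
      refine (ciInf_le (bdd_l B _) ⟨0, hB, by simp⟩).trans ?_
      simpa using x.2.2
    have h3 := lt_of_le_of_lt (le_ciSup hb ⟨x, hx, hx1⟩) h1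
    obtain ⟨y, hy⟩ := exists_lt_of_ciInf_lt h3
    exact ⟨y, y.2.1, hy.le⟩
  · intro y hy hy1
    have hb : BddAbove (range fun y : {y : H →L[ℂ] H // y ∈ B ∧ ‖y‖ ≤ 1} =>
        ⨅ x : {x : H →L[ℂ] H // x ∈ A ∧ ‖x‖ ≤ 1}, ‖(x : H →L[ℂ] H) - (y : H →L[ℂ] H)‖) := by
      refine ⟨1, ?_⟩
      rintro _ ⟨y, rfl⟩
      refine (ciInf_le (bdd_r A _) ⟨0, hA, by simp⟩).trans ?_
      simpa using y.2.2
    have h3 := lt_of_le_of_lt (le_ciSup hb ⟨y, hy, hy1⟩) h2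
    obtain ⟨x, hx⟩ := exists_lt_of_ciInf_lt h3
    exact ⟨x, x.2.1, by rw [norm_sub_rev]; exact hx.le⟩

omit [CompleteSpace H] in
theorem ballDist_le (hA : (0 : H →L[ℂ] H) ∈ A) (hB : (0 : H →L[ℂ] H) ∈ B)
    (h1 : ∀ x ∈ A, ‖x‖ ≤ 1 → ∃ y ∈ B, ‖y‖ ≤ 1 ∧ ‖x - y‖ ≤ δ)
    (h2 : ∀ y ∈ B, ‖y‖ ≤ 1 → ∃ x ∈ A, ‖x‖ ≤ 1 ∧ ‖y - x‖ ≤ δ) : ballDist A B ≤ δ := by
  have iA : Nonempty {x : H →L[ℂ] H // x ∈ A ∧ ‖x‖ ≤ 1} := ⟨⟨0, hA, by simp⟩⟩
  have iB : Nonempty {x : H →L[ℂ] H // x ∈ B ∧ ‖x‖ ≤ 1} := ⟨⟨0, hB, by simp⟩⟩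
  refine max_le (ciSup_le fun x => ?_) (ciSup_le fun y => ?_)
  · obtain ⟨y, hy, hy1, hxy⟩ := h1 x x.2.1 x.2.2
    exact (ciInf_le (bdd_l B _) ⟨y, hy, hy1⟩).trans hxy
  · obtain ⟨x, hx, hx1, hxy⟩ := h2 y y.2.1 y.2.2
    refine (ciInf_le (bdd_r A _) ⟨x, hx, hx1⟩).trans ?_
    rw [norm_sub_rev]
    exact hxy

omit [CompleteSpace H] in
theorem ballDist_nonneg (A B : Set (H →L[ℂ] H)) : 0 ≤ ballDist A B :=
  le_max_of_le_left (Real.iSup_nonneg fun _ => Real.iInf_nonneg fun _ => norm_nonneg _)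

/-- two near inclusions give a bound of the distance -/
theorem ballDist_le_of_near (hA : (0 : H →L[ℂ] H) ∈ A) (hB : (0 : H →L[ℂ] H) ∈ B)
    (hAs : ∀ (c : ℂ), ∀ y ∈ A, c • y ∈ A) (hBs : ∀ (c : ℂ), ∀ y ∈ B, c • y ∈ B)
    (h1 : NearlyIn A B δ) (h2 : NearlyIn B A δ) : ballDist A B ≤ 2 * δ :=
  ballDist_le hA hB (fun x hx hx1 => h1.normalise hBs x hx hx1)
    (fun x hx hx1 => h2.normalise hAs x hx hx1)

theorem le_of_forall_gt' {X c d : ℝ} (hc : 0 < c) (h : ∀ δ : ℝ, d < δ → X ≤ c * δ) :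
    X ≤ c * d := by
  refine le_of_forall_pos_le_add fun η hη => ?_
  have h1 := h (d + η / c) (by linarith [div_pos hη hc])
  rwa [mul_add, mul_div_cancel₀ _ hc.ne'] at h1

end

end Vale.Agent.P096.H424
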