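import Vale.Agent.P096.H424.Main

/-!
# P096: one-parameter groups of unitaries, the Kadison-Kastler metric, gluing of paths
-/

open Set Filter Topology
open scoped selfAdjoint

namespace Vale.Agent.P096.H424

open Vale.Agent.P096.Strong Vale.Agent.P096.H308

universe u

section metric

variable {H : Type u} [NormedAddCommGroup H] [InnerProductSpace ℂ H] [CompleteSpace H]
  (M N P : VonNeumannAlgebra H)

theorem kkDist_symm_le : kkDist N M ≤ kkDist M N := by
  refine le_of_forall_pos_le_add fun η hη => ?_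
  exact kkDist_le_of_near (near_of_lt (by linarith : kkDist M N < kkDist M N + η)).symm

theorem kkDist_symm : kkDist M N = kkDist N M :=
  le_antisymm (kkDist_symm_le N M) (kkDist_symm_le M N)

theorem kkDist_tri : kkDist M P ≤ kkDist M N + kkDist N P := by
  refine le_of_forall_pos_le_add fun η hη => ?_
  have h1 := near_of_lt (by linarith : kkDist M N < kkDist M N + η / 2)
  have h2 := near_of_lt (by linarith : kkDist N P < kkDist N P + η / 2)
  refine (kkDist_le_of_near (h1.trans h2)).trans (le_of_eq (by ring))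

theorem kkDist_self : kkDist M M = 0 := by
  refine le_antisymm (kkDist_le_of_near ⟨fun x hx => ⟨x, hx, by simp⟩, fun x hx =>
    ⟨x, hx, by simp⟩⟩) (kkDist_nonneg M M)

theorem eq_of_kkDist_le (h : kkDist M N ≤ 0) : M = N := by
  have hN : ∀ ε : ℝ, 0 < ε → Near M N ε := fun ε hε => near_of_lt (lt_of_le_of_lt h hε)
  exact SetLike.coe_injective
    (Set.Subset.antisymm (le_of_near_zero hN) (le_of_near_zero fun ε hε => (hN ε hε).symm))

end metric

section flow

variable {H : Type u} [NormedAddCommGroup H] [InnerProductSpace ℂ H] [CompleteSpace H]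

open selfAdjoint in
/-- the one-parameter group through a unitary close to `1`, in a C*-algebra -/
theorem exists_flow_gen {A : Type*} [CStarAlgebra A] (G : unitary A) (hlt : ‖(G - 1 : A)‖ < 2) :
    ∃ E : ℝ → unitary A, Continuous E ∧ E 0 = 1 ∧ E 1 = G ∧ (∀ s t, E (s + t) = E s * E t) ∧
      ∀ t ∈ Icc (0 : ℝ) 1, ‖(E t - 1 : A)‖ ≤ ‖(G - 1 : A)‖ := by
  set a := Unitary.argSelfAdjoint G with ha
  refine ⟨fun t => expUnitary (t • a), ?_, ?_, ?_, ?_, ?_⟩
  · exact selfAdjoint.continuous_expUnitary.comp (continuous_id.smul continuous_const)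
  · simp only [zero_smul]
    exact selfAdjoint.expUnitary_zero
  · simp only [one_smul, ha]
    exact expUnitary_argSelfAdjoint hlt
  · intro s t
    simp only [add_smul]
    refine Commute.expUnitary_add ?_
    simp only [selfAdjoint.val_smul]
    exact ((Commute.refl (a : A)).smul_left s).smul_right t
  · intro t ht
    exact Unitary.norm_expUnitary_smul_argSelfAdjoint_sub_one_le G ht hlt

/-- the one-parameter group through a unitary close to `1` -/
theorem exists_flow {v : H →L[ℂ] H} (hv : v ∈ unitary (H →L[ℂ] H)) (hlt : ‖v - 1‖ < 2) :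
    ∃ R : ℝ → (H →L[ℂ] H), Continuous R ∧ R 0 = 1 ∧ R 1 = v ∧
      (∀ t, R t ∈ unitary (H →L[ℂ] H)) ∧ (∀ s t, R (s + t) = R s * R t) ∧
      ∀ t ∈ Icc (0 : ℝ) 1, ‖R t - 1‖ ≤ ‖v - 1‖ := by
  obtain ⟨E, h1, h2, h3, h4, h5⟩ := exists_flow_gen (⟨v, hv⟩ : unitary (H →L[ℂ] H)) hlt
  refine ⟨fun t => (E t : H →L[ℂ] H), continuous_subtype_val.comp h1, ?_, ?_,
    fun t => (E t).2, ?_, h5⟩
  · change ((E 0 : unitary (H →L[ℂ] H)) : H →L[ℂ] H) = 1
    rw [h2]
    rfl
  · change ((E 1 : unitary (H →L[ℂ] H)) : H →L[ℂ] H) = v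
    rw [h3]
  · intro s t
    change ((E (s + t) : unitary (H →L[ℂ] H)) : H →L[ℂ] H) = _
    rw [h4]
    rfl

/-- the set of normalizing unitaries is closed -/
theorem normz_closed (M : VonNeumannAlgebra H) : IsClosed {v : H →L[ℂ] H | Normz M v} := by
  have h1 : {v : H →L[ℂ] H | Normz M v} =
      (⋂ x ∈ (M : Set (H →L[ℂ] H)), (fun v : H →L[ℂ] H => v * x * star v) ⁻¹' M) ∩
      (⋂ x ∈ (M : Set (H →L[ℂ] H)), (fun v : H →L[ℂ] H => star v * x * v) ⁻¹' M) := by
    ext v
    simp only [mem_inter_iff, mem_iInter, mem_preimage]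
    exact Iff.rfl
  rw [h1]
  refine IsClosed.inter ?_ ?_
  · refine isClosed_biInter fun x _ => (isClosed_vn M).preimage ?_
    fun_prop
  · refine isClosed_biInter fun x _ => (isClosed_vn M).preimage ?_
    fun_prop

theorem normz_mul {M : VonNeumannAlgebra H} {v w : H →L[ℂ] H} (hv : Normz M v) (hw : Normz M w) :
    Normz M (v * w) := by
  constructor
  · intro x hx
    have h1 := hv.1 _ (hw.1 x hx)
    simpa only [star_mul, mul_assoc] using h1
  · intro x hx
    have h1 := hw.2 _ (hv.2 x hx)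
    simpa only [star_mul, mul_assoc] using h1

theorem normz_one {M : VonNeumannAlgebra H} : Normz M (1 : H →L[ℂ] H) := by
  constructor <;> intro x hx <;> simpa using hx

/-- the one-parameter group through a normalizing unitary close to `1` normalizes -/
theorem flow_normz {M : VonNeumannAlgebra H} {v : H →L[ℂ] H} (hv6 : ‖v - 1‖ ≤ 1 / 6)
    (h : Normz M v) {R : ℝ → (H →L[ℂ] H)} (hc : Continuous R) (h0 : R 0 = 1) (h1 : R 1 = v)
    (hu : ∀ t, R t ∈ unitary (H →L[ℂ] H)) (hadd : ∀ s t, R (s + t) = R s * R t)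
    (hn : ∀ t ∈ Icc (0 : ℝ) 1, ‖R t - 1‖ ≤ ‖v - 1‖) (t : ℝ) (ht : 0 ≤ t) : Normz M (R t) := by
  have hN : ∀ m : ℕ, Normz M (R ((1 / 2) ^ m)) := by
    intro m
    induction m with
    | zero => rw [pow_zero, h1]; exact h
    | succ m ih =>
      refine Normz.sqrt (hu _) ((hn _ ⟨by positivity, ?_⟩).trans hv6) ?_
      · exact pow_le_one₀ (by norm_num) (by norm_num)
      · rw [← hadd]
        have : (1 / 2 : ℝ) ^ (m + 1) + (1 / 2) ^ (m + 1) = (1 / 2) ^ m := by ring
        rw [this]
        exact ih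
  have hk : ∀ (m k : ℕ), Normz M (R (k * (1 / 2) ^ m)) := by
    intro m k
    induction k with
    | zero =>
      rw [Nat.cast_zero, zero_mul, h0]
      exact normz_one
    | succ k ih =>
      rw [Nat.cast_succ, add_mul, one_mul, hadd]
      exact normz_mul ih (hN m)
  -- approximate `t` by dyadic numbers
  have hlim : Tendsto (fun m : ℕ => (⌊t * 2 ^ m⌋₊ : ℝ) * (1 / 2) ^ m) atTop (𝓝 t) := by
    have h2 : Tendsto (fun m : ℕ => t - (1 / 2 : ℝ) ^ m) atTop (𝓝 t) := by
      have := (tendsto_pow_atTop_nhds_zero_of_lt_one (r := (1 / 2 : ℝ)) (by norm_num)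
        (by norm_num)).const_sub t
      simpa using this
    refine tendsto_of_tendsto_of_tendsto_of_le_of_le h2 tendsto_const_nhds (fun m => ?_)
      (fun m => ?_)
    · have h3 := Nat.lt_floor_add_one (t * 2 ^ m)
      have h4 : (0 : ℝ) < (1 / 2) ^ m := by positivity
      have h5 : (2 : ℝ) ^ m * (1 / 2) ^ m = 1 := by rw [← mul_pow]; norm_num
      have h6 := mul_lt_mul_of_pos_right h3 h4
      change t - (1 / 2 : ℝ) ^ m ≤ _
      have h7 : t * 2 ^ m * (1 / 2) ^ m = t := by rw [mul_assoc, h5, mul_one]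
      rw [h7, add_mul, one_mul] at h6
      linarith
    · have h3 := Nat.floor_le (a := t * 2 ^ m) (by positivity)
      have h4 : (0 : ℝ) < (1 / 2) ^ m := by positivity
      have h5 : (2 : ℝ) ^ m * (1 / 2) ^ m = 1 := by rw [← mul_pow]; norm_num
      have h6 := mul_le_mul_of_nonneg_right h3 h4.le
      have h7 : t * 2 ^ m * (1 / 2) ^ m = t := by rw [mul_assoc, h5, mul_one]
      rwa [h7] at h6
  exact (normz_closed M).mem_of_tendsto ((hc.tendsto t).comp hlim)
    (Eventually.of_forall fun m => hk m _)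

end flow

section glue

/-- gluing of paths in a ring: the path is continued to the left by multiplication -/
theorem glue {A : Type*} [Monoid A] [TopologicalSpace A] [ContinuousMul A] (E : ℕ → A → Prop)
    (Q : ℝ → A → Prop) (p₀ : A) (h0 : E 0 p₀) (hQ0 : Q 0 p₀)
    (hstep : ∀ (n : ℕ) (p : A), E n p → ∃ R : ℝ → A, Continuous R ∧ R 0 = 1 ∧ E (n + 1) (R 1 * p) ∧
      ∀ θ ∈ Icc (0 : ℝ) 1, Q (n + θ) (R θ * p)) (n : ℕ) :
    ∃ F : ℝ → A, Continuous F ∧ F 0 = p₀ ∧ (∃ p, E n p ∧ ∀ x : ℝ, (n : ℝ) ≤ x → F x = p) ∧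
      ∀ x ∈ Icc (0 : ℝ) n, Q x (F x) := by
  induction n with
  | zero =>
    refine ⟨fun _ => p₀, continuous_const, rfl, ⟨p₀, h0, fun _ _ => rfl⟩, fun x hx => ?_⟩
    have : x = 0 := le_antisymm (by simpa using hx.2) hx.1
    rw [this]
    exact hQ0
  | succ n ih =>
    obtain ⟨F, hF, hF0, ⟨p, hp, hFp⟩, hQ⟩ := ih
    obtain ⟨R, hR, hR0, hR1, hRQ⟩ := hstep n p hp
    refine ⟨fun x => R (max 0 (min 1 (x - n))) * F x, ?_, ?_, ⟨R 1 * p, hR1, fun x hx => ?_⟩, ?_⟩
    · exact (hR.comp (continuous_const.max (continuous_const.min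
        (continuous_id.sub continuous_const)))).mul hF
    · have h1 : max 0 (min 1 ((0 : ℝ) - n)) = 0 := by
        refine max_eq_left ((min_le_right _ _).trans ?_)
        have : (0 : ℝ) ≤ n := Nat.cast_nonneg n
        linarith
      change R (max 0 (min 1 ((0 : ℝ) - n))) * F 0 = p₀
      rw [h1, hR0, one_mul, hF0]
    · push_cast at hx
      have h1 : max 0 (min 1 (x - n)) = 1 := by
        rw [min_eq_left (by linarith), max_eq_right zero_le_one]
      change R (max 0 (min 1 (x - n))) * F x = R 1 * p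
      rw [h1, hFp x (by linarith)]
    · intro x hx
      push_cast at hx
      change Q x (R (max 0 (min 1 (x - n))) * F x)
      rcases le_total x n with h | h
      · have h1 : max 0 (min 1 (x - n)) = 0 := by
          refine max_eq_left ((min_le_right _ _).trans ?_)
          linarith
        rw [h1, hR0, one_mul]
        exact hQ x ⟨hx.1, h⟩
      · have h1 : max 0 (min 1 (x - n)) = x - n := by
          rw [min_eq_right (by linarith [hx.2]), max_eq_right (by linarith)]
        rw [h1, hFp x h]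
        have h2 := hRQ (x - n) ⟨by linarith, by linarith [hx.2]⟩
        rwa [add_sub_cancel] at h2

end glue

end Vale.Agent.P096.H424
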