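import Vale.Agent.P096.H424.Path

/-!
# P096: lifting of continuous paths, conclusion
-/

open Set Filter Topology

namespace Vale.Agent.P096.H424

open Vale.Agent.P096.Strong Vale.Agent.P096.H308

universe u

variable {H : Type u} [NormedAddCommGroup H] [InnerProductSpace ℂ H] [CompleteSpace H] {C : ℝ}

/-- the approximate lifts -/
structure Lift (M : ℝ → VonNeumannAlgebra H) (ε : ℝ) where
  u : ℝ → (H →L[ℂ] H)
  cont : Continuous u
  zero : u 0 = 1
  ap : ∀ t ∈ Icc (0 : ℝ) 1, Ap (M 0) (M t) ε (u t)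

theorem lift_seq (hC : 1 ≤ C) (hLK : LK H C) {M : ℝ → VonNeumannAlgebra H} (hM : UC M) :
    ∃ L : ∀ n : ℕ, Lift M ((1 / (24 * C)) * (1 / 2) ^ n), ∀ n, ∀ t ∈ Icc (0 : ℝ) 1,
      ‖(L (n + 1)).u t - (L n).u t‖ ≤ (1 / 2) ^ n := by
  have hC0 : 0 < C := by linarith
  have hp : ∀ n : ℕ, 0 < (1 / (24 * C)) * (1 / 2 : ℝ) ^ n := fun n => by positivity
  have hs : ∀ n : ℕ, 24 * (C * ((1 / (24 * C)) * (1 / 2 : ℝ) ^ n)) = (1 / 2) ^ n := fun n => by
    field_simp
  have h0 : Nonempty (Lift M ((1 / (24 * C)) * (1 / 2) ^ 0)) := by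
    obtain ⟨u, h1, h2, h3⟩ := initial hC hLK hM (hp 0)
    exact ⟨⟨u, h1, h2, h3⟩⟩
  have hstep : ∀ (n : ℕ) (L : Lift M ((1 / (24 * C)) * (1 / 2) ^ n)),
      ∃ L' : Lift M ((1 / (24 * C)) * (1 / 2) ^ (n + 1)), ∀ t ∈ Icc (0 : ℝ) 1,
        ‖L'.u t - L.u t‖ ≤ (1 / 2) ^ n := by
    intro n L
    obtain ⟨u', h1, h2, h3, h4⟩ := improve hC hLK hM (hp n)
      (by rw [hs]; exact pow_le_one₀ (by norm_num) (by norm_num)) L.cont L.zero L.ap
      (hp (n + 1))
    refine ⟨⟨u', h1, h2, h3⟩, fun t ht => (h4 t ht).trans ?_⟩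
    have h5 := hs n
    have h6 : (0 : ℝ) < (1 / 2) ^ n := by positivity
    linarith
  choose f hf using hstep
  let L : ∀ n : ℕ, Lift M ((1 / (24 * C)) * (1 / 2) ^ n) := fun n =>
    Nat.rec (Classical.choice h0) (fun n L => f n L) n
  exact ⟨L, fun n t ht => hf n (L n) t ht⟩

/-- **Path lifting**, for a path parametrised by the real numbers -/
theorem path_lift_real (hC : 1 ≤ C) (hLK : LK H C) {M : ℝ → VonNeumannAlgebra H} (hM : UC M) :
    ∃ u : ℝ → (H →L[ℂ] H), ContinuousOn u (Icc 0 1) ∧ u 0 = 1 ∧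
      ∀ t ∈ Icc (0 : ℝ) 1, Ex (M 0) (M t) (u t) := by
  obtain ⟨L, hL⟩ := lift_seq hC hLK hM
  have hC0 : 0 < C := by linarith
  have hcs : ∀ t ∈ Icc (0 : ℝ) 1, ∃ a, Tendsto (fun n => (L n).u t) atTop (𝓝 a) := by
    intro t ht
    refine cauchySeq_tendsto_of_complete (cauchySeq_of_le_geometric (1 / 2) 1 (by norm_num)
      fun n => ?_)
    rw [dist_comm, dist_eq_norm, one_mul]
    exact hL n t ht
  choose! v hv using hcs
  have hdist : ∀ t ∈ Icc (0 : ℝ) 1, ∀ n, ‖(L n).u t - v t‖ ≤ 2 * (1 / 2) ^ n := by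
    intro t ht n
    have h1 := dist_le_of_le_geometric_of_tendsto (1 / 2) 1 (by norm_num)
      (fun n => by
        rw [dist_comm, dist_eq_norm, one_mul]
        exact hL n t ht) (hv t ht) n
    rw [dist_eq_norm] at h1
    refine h1.trans (le_of_eq (by ring))
  have hp2 : Tendsto (fun n : ℕ => 2 * (1 / 2 : ℝ) ^ n) atTop (𝓝 0) := by
    have := (tendsto_pow_atTop_nhds_zero_of_lt_one (r := (1 / 2 : ℝ)) (by norm_num)
      (by norm_num)).const_mul 2
    simpa using this
  have hunif : TendstoUniformlyOn (fun n t => (L n).u t) v atTop (Icc 0 1) := by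
    rw [Metric.tendstoUniformlyOn_iff]
    intro ε hε
    filter_upwards [(tendsto_order.1 hp2).2 ε hε] with n hn t ht
    rw [dist_comm, dist_eq_norm]
    exact lt_of_le_of_lt (hdist t ht n) hn
  refine ⟨v, hunif.continuousOn (Eventually.of_forall fun n =>
    (L n).cont.continuousOn).frequently, ?_, fun t ht => ?_⟩
  · have h1 := hv 0 ⟨le_rfl, zero_le_one⟩
    have h2 : (fun n => (L n).u 0) = fun _ => (1 : H →L[ℂ] H) := funext fun n => (L n).zero
    rw [h2] at h1
    exact (tendsto_nhds_unique h1 tendsto_const_nhds)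
  · have hvu : v t ∈ unitary (H →L[ℂ] H) := by
      have hcl : IsClosed (unitary (H →L[ℂ] H) : Set (H →L[ℂ] H)) := isClosed_unitary
      exact hcl.mem_of_tendsto (hv t ht) (Eventually.of_forall fun n => ((L n).ap t ht).1)
    obtain ⟨N, hN⟩ := Ex.exists (M 0) hvu
    have hle : ∀ n : ℕ, kkDist N (M t) ≤ 2 * (2 * (1 / 2) ^ n) +
        (1 / (24 * C)) * (1 / 2) ^ n := by
      intro n
      obtain ⟨hu, P, hP, hPM⟩ := (L n).ap t ht
      have h1 : Ex P N (v t * star ((L n).u t)) := hP.star.mul hN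
      have h2 : kkDist P N ≤ 2 * (2 * (1 / 2) ^ n) := by
        refine h1.kk.trans (mul_le_mul_of_nonneg_left ?_ (by norm_num))
        refine (norm_mul_star_sub_le hu).trans ?_
        rw [norm_sub_rev]
        exact hdist t ht n
      refine (kkDist_tri N P (M t)).trans (add_le_add ?_ hPM)
      rw [kkDist_symm]
      exact h2
    have hlim : Tendsto (fun n : ℕ => 2 * (2 * (1 / 2 : ℝ) ^ n) +
        (1 / (24 * C)) * (1 / 2) ^ n) atTop (𝓝 0) := by
      have h3 := (tendsto_pow_atTop_nhds_zero_of_lt_one (r := (1 / 2 : ℝ)) (by norm_num)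
        (by norm_num)).const_mul (1 / (24 * C))
      have h4 := (hp2.const_mul 2).add h3
      simpa using h4
    have h0 : kkDist N (M t) ≤ 0 := ge_of_tendsto' hlim hle
    rw [← eq_of_kkDist_le N (M t) h0]
    exact hN

/-- **Path lifting**: a path of von Neumann algebras, continuous in the Kadison-Kastler metric, is
implemented by a norm-continuous path of unitaries. -/
theorem path_lift (hC : 1 ≤ C) (hLK : LK H C) (M : unitInterval → VonNeumannAlgebra H)
    (hM : ∀ s, Tendsto (fun t => kkDist (M s) (M t)) (𝓝 s) (𝓝 0)) :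
    ∃ u : unitInterval → (H →L[ℂ] H), Continuous u ∧ u 0 = 1 ∧ ∀ t, Ex (M 0) (M t) (u t) := by
  let _ : PseudoMetricSpace (VonNeumannAlgebra H) :=
    { dist := kkDist
      dist_self := kkDist_self
      dist_comm := kkDist_symm
      dist_triangle := kkDist_tri }
  have hMc : Continuous M := by
    rw [continuous_iff_continuousAt]
    intro s
    refine tendsto_iff_dist_tendsto_zero.2 ?_
    have h1 : (fun t => dist (M t) (M s)) = fun t => kkDist (M s) (M t) :=
      funext fun t => kkDist_symm (M t) (M s)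
    rw [h1]
    exact hM s
  set M' : ℝ → VonNeumannAlgebra H := fun t => M (projIcc 0 1 zero_le_one t) with hM'
  have hM'c : Continuous M' := hMc.comp continuous_projIcc
  have hUC : UC M' := fun η hη => exists_step hM'c.continuousOn hη
  obtain ⟨u, hu, hu0, hex⟩ := path_lift_real hC hLK hUC
  refine ⟨fun t => u t, hu.comp_continuous continuous_subtype_val fun t => t.2, ?_, fun t => ?_⟩
  · exact hu0
  · have h1 := hex t t.2
    have e0 : M' 0 = M 0 := by
      change M (projIcc 0 1 zero_le_one 0) = M 0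
      rw [projIcc_left]
      rfl
    have e1 : M' t = M t := by
      change M (projIcc 0 1 zero_le_one t) = M t
      rw [projIcc_val]
    rwa [e0, e1] at h1

end Vale.Agent.P096.H424
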