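import Vale.Agent.P096.H424.Dist
import Vale.Agent.P096.H308.Main

/-!
# P096: the strong Kadison-Kastler theorem for the algebras generated by `*`-algebras
-/

open Set

namespace Vale.Agent.P096.H424

open Vale.Agent.P096.Strong (kkDist ConjWithin)

universe u

section

variable {H : Type u} [NormedAddCommGroup H] [InnerProductSpace ℂ H] [CompleteSpace H]

/-- the von Neumann algebra generated by a `*`-algebra of operators (and `1`) -/
noncomputable def vn (A : NonUnitalStarSubalgebra ℂ (H →L[ℂ] H)) : VonNeumannAlgebra H where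
  toStarSubalgebra := StarSubalgebra.centralizer ℂ (centralizer (A : Set (H →L[ℂ] H)))
  centralizer_centralizer' := by
    change centralizer (centralizer ((StarSubalgebra.centralizer ℂ
      (centralizer (A : Set (H →L[ℂ] H))) : StarSubalgebra ℂ (H →L[ℂ] H)) : Set (H →L[ℂ] H))) =
      ((StarSubalgebra.centralizer ℂ
      (centralizer (A : Set (H →L[ℂ] H))) : StarSubalgebra ℂ (H →L[ℂ] H)) : Set (H →L[ℂ] H))
    rw [StarSubalgebra.coe_centralizer, Set.centralizer_centralizer_centralizer]

theorem coe_vn (A : NonUnitalStarSubalgebra ℂ (H →L[ℂ] H)) :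
    (vn A : Set (H →L[ℂ] H)) = centralizer (centralizer (A : Set (H →L[ℂ] H))) := by
  have h1 : centralizer (A : Set (H →L[ℂ] H)) ∪ star (centralizer (A : Set (H →L[ℂ] H))) =
      centralizer (A : Set (H →L[ℂ] H)) := by
    rw [← coe_comm]
    exact union_star (comm A)
  change ((StarSubalgebra.centralizer ℂ
      (centralizer (A : Set (H →L[ℂ] H))) : StarSubalgebra ℂ (H →L[ℂ] H)) : Set (H →L[ℂ] H)) = _
  rw [StarSubalgebra.coe_centralizer, h1]

theorem kkDist_eq (M N : VonNeumannAlgebra H) :
    kkDist M N = ballDist (M : Set (H →L[ℂ] H)) (N : Set (H →L[ℂ] H)) := rfl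

theorem zero_mem_centralizer' (S : Set (H →L[ℂ] H)) : (0 : H →L[ℂ] H) ∈ centralizer S :=
  Set.zero_mem_centralizer

theorem smul_mem_centralizer' (S : Set (H →L[ℂ] H)) (c : ℂ) (x : H →L[ℂ] H)
    (hx : x ∈ centralizer S) : c • x ∈ centralizer S := by
  intro s hs
  rw [mul_smul_comm, smul_mul_assoc, hx s hs]

theorem smul_mem_matrices (n : ℕ) (S : Set (H →L[ℂ] H)) (c : ℂ) (x : Sm n H →L[ℂ] Sm n H)
    (hx : x ∈ matrices n (centralizer S)) : c • x ∈ matrices n (centralizer S) := by
  rw [mem_matrices_iff] at hx ⊢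
  intro s hs
  rw [mul_smul_comm, smul_mul_assoc, hx s hs]

theorem zero_mem_matrices (n : ℕ) (S : Set (H →L[ℂ] H)) :
    (0 : Sm n H →L[ℂ] Sm n H) ∈ matrices n (centralizer S) := by
  rw [mem_matrices_iff]
  intro s _
  rw [mul_zero, zero_mul]

variable (A B : NonUnitalStarSubalgebra ℂ (H →L[ℂ] H))

theorem ballDist_comm : ballDist (centralizer (A : Set (H →L[ℂ] H)))
    (centralizer (B : Set (H →L[ℂ] H))) ≤ (2 * (2 * KD)) * ballDist (A : Set (H →L[ℂ] H)) B := by
  have hK := KD_pos
  refine le_of_forall_gt' (by positivity) fun δ hδ => ?_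
  obtain ⟨h1, h2⟩ := near_of_ballDist_lt (zero_mem A) (zero_mem B) hδ
  refine (ballDist_le_of_near (zero_mem_centralizer' _) (zero_mem_centralizer' _)
    (smul_mem_centralizer' _) (smul_mem_centralizer' _) (near_commutant B A h2)
    (near_commutant A B h1)).trans (le_of_eq (by ring))

theorem ballDist_matrices (n : ℕ) : ballDist (matrices n (centralizer (A : Set (H →L[ℂ] H))))
    (matrices n (centralizer (B : Set (H →L[ℂ] H)))) ≤
      (2 * (2 * KD)) * ballDist (A : Set (H →L[ℂ] H)) B := by
  have hK := KD_pos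
  refine le_of_forall_gt' (by positivity) fun δ hδ => ?_
  obtain ⟨h1, h2⟩ := near_of_ballDist_lt (zero_mem A) (zero_mem B) hδ
  refine (ballDist_le_of_near (zero_mem_matrices _ _) (zero_mem_matrices _ _)
    (smul_mem_matrices _ _) (smul_mem_matrices _ _) (near_matrices B A h2 n)
    (near_matrices A B h1 n)).trans (le_of_eq (by ring))

theorem ballDist_bicomm : ballDist (centralizer (centralizer (A : Set (H →L[ℂ] H))))
    (centralizer (centralizer (B : Set (H →L[ℂ] H)))) ≤
      (2 * (2 * KD)) ^ 2 * ballDist (A : Set (H →L[ℂ] H)) B := by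
  have hK := KD_pos
  have h1 := ballDist_comm A B
  have h2 := ballDist_comm (comm A) (comm B)
  rw [coe_comm, coe_comm] at h2
  calc _ ≤ (2 * (2 * KD)) * ballDist (centralizer (A : Set (H →L[ℂ] H)))
        (centralizer (B : Set (H →L[ℂ] H))) := h2
    _ ≤ (2 * (2 * KD)) * ((2 * (2 * KD)) * ballDist (A : Set (H →L[ℂ] H)) B) := by gcongr
    _ = _ := by ring

theorem ballDist_bimatrices (n : ℕ) :
    ballDist (matrices n (centralizer (centralizer (A : Set (H →L[ℂ] H)))))
    (matrices n (centralizer (centralizer (B : Set (H →L[ℂ] H))))) ≤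
      (2 * (2 * KD)) ^ 2 * ballDist (A : Set (H →L[ℂ] H)) B := by
  have hK := KD_pos
  have h1 := ballDist_comm A B
  have h2 := ballDist_matrices (comm A) (comm B) n
  rw [coe_comm, coe_comm] at h2
  calc _ ≤ (2 * (2 * KD)) * ballDist (centralizer (A : Set (H →L[ℂ] H)))
        (centralizer (B : Set (H →L[ℂ] H))) := h2
    _ ≤ (2 * (2 * KD)) * ((2 * (2 * KD)) * ballDist (A : Set (H →L[ℂ] H)) B) := by gcongr
    _ = _ := by ring

/-- a unitary conjugating two algebras conjugates their commutants -/
theorem Conjugates.comm {u : H →L[ℂ] H} (hu : u ∈ unitary (H →L[ℂ] H)) {S T : Set (H →L[ℂ] H)}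
    (h : Conjugates u S T) : Conjugates u (centralizer S) (centralizer T) := by
  have h1 := Unitary.star_mul_self_of_mem hu
  have h2 := Unitary.mul_star_self_of_mem hu
  ext x
  constructor
  · rintro ⟨y, hy, rfl⟩ t ht
    rw [← h] at ht
    obtain ⟨s, hs, rfl⟩ := ht
    have h3 := hy s hs
    calc (u * s * star u) * (u * y * star u) = u * (s * ((star u * u) * y)) * star u := by
          simp only [mul_assoc]
      _ = u * (y * ((star u * u) * s)) * star u := by rw [h1, one_mul, one_mul, h3]
      _ = (u * y * star u) * (u * s * star u) := by simp only [mul_assoc]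
  · intro hx
    refine ⟨star u * x * u, fun s hs => ?_, ?_⟩
    · have h3 : u * s * star u ∈ T := by rw [← h]; exact ⟨s, hs, rfl⟩
      have h4 := hx _ h3
      calc s * (star u * x * u) = (star u * u) * s * (star u * x * u) := by rw [h1, one_mul]
        _ = star u * ((u * s * star u) * x) * u := by simp only [mul_assoc]
        _ = star u * (x * (u * s * star u)) * u := by rw [h4]
        _ = (star u * x * u) * s * (star u * u) := by simp only [mul_assoc]
        _ = (star u * x * u) * s := by rw [h1, mul_one]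
    · change u * (star u * x * u) * star u = x
      calc u * (star u * x * u) * star u = (u * star u) * x * (u * star u) := by
            simp only [mul_assoc]
        _ = x := by rw [h2, one_mul, mul_one]

end

/-- the strong Kadison-Kastler theorem for `*`-algebras of operators: one unitary conjugates the
commutants and the double commutants -/
theorem strong_star {C₀ : ℝ} (hC : 1 ≤ C₀)
    (hlin : ∀ (H : Type u) [NormedAddCommGroup H] [InnerProductSpace ℂ H] [CompleteSpace H]
        (M N : VonNeumannAlgebra H), C₀ * kkDist M N ≤ 1 →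
        ∃ u ∈ unitary (H →L[ℂ] H), ‖u - 1‖ ≤ C₀ * kkDist M N ∧
          (fun x => u * x * star u) '' (M : Set (H →L[ℂ] H)) = (N : Set (H →L[ℂ] H)))
    (H : Type u) [NormedAddCommGroup H] [InnerProductSpace ℂ H] [CompleteSpace H]
    (A B : NonUnitalStarSubalgebra ℂ (H →L[ℂ] H))
    (hAB : C₀ * (2 * (2 * KD)) ^ 2 * ballDist (A : Set (H →L[ℂ] H)) B ≤ 1) :
    ∃ u ∈ unitary (H →L[ℂ] H),
      ‖u - 1‖ ≤ C₀ * (2 * (2 * KD)) ^ 2 * ballDist (A : Set (H →L[ℂ] H)) B ∧
      Conjugates u (centralizer (A : Set (H →L[ℂ] H))) (centralizer (B : Set (H →L[ℂ] H))) ∧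
      Conjugates u (centralizer (centralizer (A : Set (H →L[ℂ] H))))
        (centralizer (centralizer (B : Set (H →L[ℂ] H)))) := by
  have h1 : C₀ * kkDist (vn A) (vn B) ≤
      C₀ * (2 * (2 * KD)) ^ 2 * ballDist (A : Set (H →L[ℂ] H)) B := by
    rw [kkDist_eq, coe_vn, coe_vn, mul_assoc]
    exact mul_le_mul_of_nonneg_left (ballDist_bicomm A B) (by linarith)
  obtain ⟨u, hu, hu1, hu2⟩ := hlin H (vn A) (vn B) (h1.trans hAB)
  rw [coe_vn, coe_vn] at hu2
  have h3 : Conjugates u (centralizer (centralizer (A : Set (H →L[ℂ] H))))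
        (centralizer (centralizer (B : Set (H →L[ℂ] H)))) := hu2
  have h4 := h3.comm hu
  rw [Set.centralizer_centralizer_centralizer, Set.centralizer_centralizer_centralizer] at h4
  exact ⟨u, hu, hu1.trans h1, h4, h3⟩

end Vale.Agent.P096.H424
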