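import Vale.Agent.P096.H424.Flow

/-!
# P096: lifting of continuous paths of von Neumann algebras to continuous paths of unitaries
-/

open Set Filter Topology

namespace Vale.Agent.P096.H424

open Vale.Agent.P096.Strong Vale.Agent.P096.H308

universe u

variable {H : Type u} [NormedAddCommGroup H] [InnerProductSpace ℂ H] [CompleteSpace H]

/-- `p` is a unitary with `p M₀ p* = M` -/
def Ex (M₀ M : VonNeumannAlgebra H) (p : H →L[ℂ] H) : Prop :=
  p ∈ unitary (H →L[ℂ] H) ∧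
    (fun x => p * x * star p) '' (M₀ : Set (H →L[ℂ] H)) = (M : Set (H →L[ℂ] H))

theorem Ex.one (M : VonNeumannAlgebra H) : Ex M M 1 := by
  refine ⟨one_mem _, ?_⟩
  simp

theorem Ex.mul {M N P : VonNeumannAlgebra H} {p q : H →L[ℂ] H} (hp : Ex M N p) (hq : Ex N P q) :
    Ex M P (q * p) := by
  refine ⟨mul_mem hq.1 hp.1, ?_⟩
  rw [← hq.2, ← hp.2, image_image]
  refine image_congr fun x _ => ?_
  simp only [star_mul, mul_assoc]

theorem Ex.exists (M : VonNeumannAlgebra H) {p : H →L[ℂ] H} (hp : p ∈ unitary (H →L[ℂ] H)) :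
    ∃ N, Ex M N p := ⟨conjVN hp M, hp, image_conj hp M⟩

theorem Ex.star {M N : VonNeumannAlgebra H} {p : H →L[ℂ] H} (hp : Ex M N p) :
    Ex N M (star p) := by
  refine ⟨Unitary.star_mem hp.1, ?_⟩
  rw [← hp.2, image_image]
  have h : ∀ x : H →L[ℂ] H, Star.star p * (p * x * Star.star p) * Star.star (Star.star p) = x := by
    intro x
    rw [star_star]
    calc Star.star p * (p * x * Star.star p) * p = (Star.star p * p) * x * (Star.star p * p) := by
          simp only [mul_assoc]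
      _ = x := by rw [Unitary.star_mul_self_of_mem hp.1, one_mul, mul_one]
  simp only [h, image_id']

theorem Ex.kk {M N : VonNeumannAlgebra H} {p : H →L[ℂ] H} (hp : Ex M N p) :
    kkDist M N ≤ 2 * ‖p - 1‖ := kkDist_le_of_conj hp.1 hp.2

theorem Ex.normz {M : VonNeumannAlgebra H} {w : H →L[ℂ] H} (h : Ex M M w) : Normz M w := by
  constructor
  · intro x hx
    have h1 : w * x * Star.star w ∈ (M : Set (H →L[ℂ] H)) := by
      rw [← h.2]
      exact ⟨x, hx, rfl⟩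
    exact h1
  · intro x hx
    have h1 : Star.star w * x * Star.star (Star.star w) ∈ (M : Set (H →L[ℂ] H)) := by
      rw [← h.star.2]
      exact ⟨x, hx, rfl⟩
    rw [star_star] at h1
    exact h1

theorem Ex.of_normz {M : VonNeumannAlgebra H} {w : H →L[ℂ] H} (hw : w ∈ unitary (H →L[ℂ] H))
    (h : Normz M w) : Ex M M w := by
  refine ⟨hw, ?_⟩
  refine Set.Subset.antisymm ?_ fun x hx => ?_
  · rintro _ ⟨x, hx, rfl⟩
    exact h.1 x hx
  · refine ⟨Star.star w * x * w, h.2 x hx, ?_⟩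
    calc w * (Star.star w * x * w) * Star.star w = (w * Star.star w) * x * (w * Star.star w) := by
          simp only [mul_assoc]
      _ = x := by rw [Unitary.mul_star_self_of_mem hw, one_mul, mul_one]

theorem norm_mul_sub_le {p q : H →L[ℂ] H} (hp : p ∈ unitary (H →L[ℂ] H)) :
    ‖q * p - p‖ ≤ ‖q - 1‖ := by
  have h1 : q * p - p = (q - 1) * p := by rw [sub_mul, one_mul]
  rw [h1]
  calc ‖(q - 1) * p‖ ≤ ‖q - 1‖ * ‖p‖ := norm_mul_le _ _
    _ ≤ ‖q - 1‖ * 1 := by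
      gcongr
      exact norm_le_one hp
    _ = ‖q - 1‖ := mul_one _

theorem norm_mul_star_sub_le {p q : H →L[ℂ] H} (hp : p ∈ unitary (H →L[ℂ] H)) :
    ‖q * star p - 1‖ ≤ ‖q - p‖ := by
  have h1 : q * star p - 1 = (q - p) * star p := by
    rw [sub_mul, Unitary.mul_star_self_of_mem hp]
  rw [h1]
  calc ‖(q - p) * star p‖ ≤ ‖q - p‖ * ‖star p‖ := norm_mul_le _ _
    _ ≤ ‖q - p‖ * 1 := by
      gcongr
      exact norm_le_one (Unitary.star_mem hp)
    _ = ‖q - p‖ := mul_one _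

/-- `p` is a unitary and `p M₀ p*` is within `ε` of `M` -/
def Ap (M₀ M : VonNeumannAlgebra H) (ε : ℝ) (p : H →L[ℂ] H) : Prop :=
  p ∈ unitary (H →L[ℂ] H) ∧ ∃ N, Ex M₀ N p ∧ kkDist N M ≤ ε

theorem Ex.ap {M₀ M : VonNeumannAlgebra H} {p : H →L[ℂ] H} (h : Ex M₀ M p) : Ap M₀ M 0 p :=
  ⟨h.1, M, h, (kkDist_self M).le⟩

theorem Ap.mono {M₀ M : VonNeumannAlgebra H} {ε ε' : ℝ} {p : H →L[ℂ] H} (h : Ap M₀ M ε p)
    (hε : ε ≤ ε') : Ap M₀ M ε' p := by
  obtain ⟨h1, N, h2, h3⟩ := h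
  exact ⟨h1, N, h2, h3.trans hε⟩

/-- the linear form of the strong Kadison-Kastler theorem, for one Hilbert space -/
def LK (H : Type u) [NormedAddCommGroup H] [InnerProductSpace ℂ H] [CompleteSpace H]
    (C : ℝ) : Prop :=
  ∀ M N : VonNeumannAlgebra H, C * kkDist M N ≤ 1 → ∃ u, Ex M N u ∧ ‖u - 1‖ ≤ C * kkDist M N

section

variable {C : ℝ}

theorem Ap.correct (hC : 1 ≤ C) (hLK : LK H C) {M₀ M : VonNeumannAlgebra H} {ε : ℝ}
    {p : H →L[ℂ] H} (h : Ap M₀ M ε p) (hε : C * ε ≤ 1) :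
    ∃ p', Ex M₀ M p' ∧ ‖p' - p‖ ≤ C * ε := by
  obtain ⟨h1, N, h2, h3⟩ := h
  have h4 : C * kkDist N M ≤ C * ε := mul_le_mul_of_nonneg_left h3 (by linarith)
  obtain ⟨u, hu, hu1⟩ := hLK N M (h4.trans hε)
  exact ⟨u * p, h2.mul hu, (norm_mul_sub_le h1).trans (hu1.trans h4)⟩

theorem piece (hC : 1 ≤ C) (hLK : LK H C) {M₀ A B : VonNeumannAlgebra H} {p r : H →L[ℂ] H}
    (hp : Ex M₀ A p) {ε η δ : ℝ} (hη : 0 ≤ η) (hr : Ap M₀ B ε r) (hpr : ‖p - r‖ ≤ δ)
    (hAB : kkDist A B ≤ η) (h1 : C * ε + δ + C * η ≤ 1 / 6) (hε : 0 ≤ ε) :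
    ∃ R : ℝ → (H →L[ℂ] H), Continuous R ∧ R 0 = 1 ∧ (Ex M₀ B (R 1 * p) ∧ ‖R 1 * p - r‖ ≤ C * ε) ∧
      ∀ θ ∈ Icc (0 : ℝ) 1, (∃ N, Ex M₀ N (R θ * p) ∧ kkDist N A ≤ 2 * (C * η)) ∧
        ‖R θ * p - p‖ ≤ C * ε + δ + 2 * (C * η) := by
  have hC0 : 0 ≤ C := by linarith
  have hδ : 0 ≤ δ := (norm_nonneg _).trans hpr
  have hCη : 0 ≤ C * η := mul_nonneg hC0 hη
  have hCε : 0 ≤ C * ε := mul_nonneg hC0 hε
  obtain ⟨p', hp', hp'r⟩ := hr.correct hC hLK (by linarith)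
  have h4 : C * kkDist A B ≤ C * η := mul_le_mul_of_nonneg_left hAB hC0
  obtain ⟨v, hv, hv1⟩ := hLK A B (by linarith)
  have hvn : ‖v - 1‖ ≤ C * η := hv1.trans h4
  set g : H →L[ℂ] H := p' * star p with hg
  have hgE : Ex A B g := hp.star.mul hp'
  have hgn : ‖g - 1‖ ≤ C * ε + δ := by
    refine (norm_mul_star_sub_le hp.1).trans ?_
    calc ‖p' - p‖ = ‖(p' - r) - (p - r)‖ := by rw [sub_sub_sub_cancel_right]
      _ ≤ ‖p' - r‖ + ‖p - r‖ := norm_sub_le _ _
      _ ≤ C * ε + δ := add_le_add hp'r hpr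
  set w : H →L[ℂ] H := star v * g with hw
  have hwE : Ex A A w := hgE.mul hv.star
  have hwn : ‖w - 1‖ ≤ C * ε + δ + C * η := by
    have e1 : w - 1 = star v * (g - v) := by
      rw [hw, mul_sub, Unitary.star_mul_self_of_mem hv.1]
    have e2 : ‖star v‖ ≤ 1 := norm_le_one (Unitary.star_mem hv.1)
    rw [e1]
    calc ‖star v * (g - v)‖ ≤ ‖star v‖ * ‖g - v‖ := norm_mul_le _ _
      _ ≤ 1 * ‖g - v‖ := by gcongr
      _ = ‖(g - 1) - (v - 1)‖ := by rw [one_mul, sub_sub_sub_cancel_right]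
      _ ≤ ‖g - 1‖ + ‖v - 1‖ := norm_sub_le _ _
      _ ≤ _ := add_le_add hgn hvn
  obtain ⟨V, hVc, hV0, hV1, hVu, hVa, hVn⟩ := exists_flow hv.1 (by linarith)
  obtain ⟨W, hWc, hW0, hW1, hWu, hWa, hWn⟩ := exists_flow hwE.1 (by linarith)
  have hWN : ∀ θ, 0 ≤ θ → Ex A A (W θ) := fun θ hθ => Ex.of_normz (hWu θ)
    (flow_normz (hwn.trans h1) hwE.normz hWc hW0 hW1 hWu hWa hWn θ hθ)
  refine ⟨fun θ => V θ * W θ, hVc.mul hWc, by change V 0 * W 0 = 1; rw [hV0, hW0, one_mul], ?_, ?_⟩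
  · have e : V 1 * W 1 * p = p' := by
      rw [hV1, hW1, hw, ← mul_assoc, Unitary.mul_star_self_of_mem hv.1, one_mul, hg, mul_assoc,
        Unitary.star_mul_self_of_mem hp.1, mul_one]
    rw [e]
    exact ⟨hp', hp'r⟩
  · intro θ hθ
    obtain ⟨N, hN⟩ := Ex.exists A (hVu θ)
    have h5 := (hVn θ hθ).trans hvn
    have h6 := (hWn θ hθ).trans hwn
    refine ⟨⟨N, ?_, ?_⟩, ?_⟩
    · exact hp.mul ((hWN θ hθ.1).mul hN)
    · rw [kkDist_symm]
      exact hN.kk.trans (mul_le_mul_of_nonneg_left h5 (by norm_num))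
    · refine (norm_mul_sub_le hp.1).trans ?_
      have e : V θ * W θ - 1 = (V θ * W θ - W θ) + (W θ - 1) := by abel
      rw [e]
      refine (norm_add_le _ _).trans ?_
      have h7 := (norm_mul_sub_le (q := V θ) (hWu θ)).trans h5
      linarith

/-- uniform continuity with a step `1 / N` -/
def UC (M : ℝ → VonNeumannAlgebra H) : Prop :=
  ∀ η : ℝ, 0 < η → ∃ N : ℕ, 0 < N ∧ ∀ s ∈ Icc (0 : ℝ) 1, ∀ t ∈ Icc (0 : ℝ) 1,
    |s - t| ≤ 1 / N → kkDist (M s) (M t) ≤ η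

theorem exists_step {X : Type*} [PseudoMetricSpace X] {f : ℝ → X} (hf : ContinuousOn f (Icc 0 1))
    {η : ℝ} (hη : 0 < η) : ∃ N : ℕ, 0 < N ∧ ∀ s ∈ Icc (0 : ℝ) 1, ∀ t ∈ Icc (0 : ℝ) 1,
      |s - t| ≤ 1 / N → dist (f s) (f t) ≤ η := by
  have h1 := isCompact_Icc.uniformContinuousOn_of_continuous hf
  rw [Metric.uniformContinuousOn_iff] at h1
  obtain ⟨δ, hδ, h2⟩ := h1 η hη
  obtain ⟨N, hN⟩ := exists_nat_gt (1 / δ)
  have hN0 : (0 : ℝ) < N := lt_trans (by positivity) hN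
  refine ⟨N, by exact_mod_cast hN0, fun s hs t ht hst => (h2 s hs t ht ?_).le⟩
  rw [Real.dist_eq]
  refine lt_of_le_of_lt hst ?_
  rw [div_lt_iff₀ hN0]
  rw [div_lt_iff₀ hδ] at hN
  linarith

theorem step_mul {N K : ℕ} (hN : 0 < N) (hK : 0 < K) :
    (1 : ℝ) / (N * K : ℕ) ≤ 1 / N ∧ (1 : ℝ) / (N * K : ℕ) ≤ 1 / K := by
  have h1 : (0 : ℝ) < N := by exact_mod_cast hN
  have h2 : (0 : ℝ) < K := by exact_mod_cast hK
  have h3 : (1 : ℝ) ≤ N := by exact_mod_cast hN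
  have h4 : (1 : ℝ) ≤ K := by exact_mod_cast hK
  push_cast
  constructor
  · exact one_div_le_one_div_of_le h1 (by nlinarith)
  · exact one_div_le_one_div_of_le h2 (by nlinarith)

theorem initial (hC : 1 ≤ C) (hLK : LK H C) {M : ℝ → VonNeumannAlgebra H} (hM : UC M) {ε' : ℝ}
    (hε' : 0 < ε') : ∃ u : ℝ → (H →L[ℂ] H), Continuous u ∧ u 0 = 1 ∧
      ∀ t ∈ Icc (0 : ℝ) 1, Ap (M 0) (M t) ε' (u t) := by
  have hC0 : 0 < C := by linarith
  set η : ℝ := min (ε' / (3 * C)) (1 / (12 * C)) with hηd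
  have hη : 0 < η := by rw [hηd]; positivity
  have hη1 : 3 * C * η ≤ ε' := by
    have : η ≤ ε' / (3 * C) := min_le_left _ _
    rw [le_div_iff₀ (by positivity)] at this
    linarith
  have hη2 : C * η ≤ 1 / 12 := by
    have : η ≤ 1 / (12 * C) := min_le_right _ _
    rw [le_div_iff₀ (by positivity)] at this
    linarith
  obtain ⟨N, hN, hUC⟩ := hM η hη
  have hN0 : (0 : ℝ) < N := by exact_mod_cast hN
  have hCη : 0 < C * η := by positivity
  have hηC : η ≤ C * η := by nlinarith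
  obtain ⟨F, hF, hF0, -, hQ⟩ := glue (A := H →L[ℂ] H)
    (fun n p => n ≤ N → Ex (M 0) (M (n / N)) p)
    (fun x p => x ≤ N → Ap (M 0) (M (x / N)) ε' p) 1
    (fun _ => by
      rw [Nat.cast_zero, zero_div]
      exact Ex.one _)
    (fun _ => by
      rw [zero_div]
      exact (Ex.one _).ap.mono hε'.le)
    (fun n p hp => by
      by_cases hn : n + 1 ≤ N
      · have hp' := hp (by omega)
        have hnN : ((n : ℝ) + 1) ≤ N := by exact_mod_cast hn
        have hn0 : (0 : ℝ) ≤ n := Nat.cast_nonneg n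
        have hs : (n : ℝ) / N ∈ Icc (0 : ℝ) 1 :=
          ⟨by positivity, by rw [div_le_one hN0]; linarith⟩
        have hs' : ((n : ℝ) + 1) / N ∈ Icc (0 : ℝ) 1 :=
          ⟨by positivity, by rw [div_le_one hN0]; linarith⟩
        have hAB : kkDist (M (n / N)) (M ((n + 1) / N)) ≤ η := hUC _ hs _ hs' (by
          rw [← sub_div, abs_div, abs_of_pos hN0]
          have : (n : ℝ) - (n + 1) = -1 := by ring
          rw [this, abs_neg, abs_one])
        obtain ⟨v, hv, hv1⟩ := hLK (M (n / N)) (M ((n + 1) / N)) (by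
          have := mul_le_mul_of_nonneg_left hAB hC0.le
          linarith)
        have hvn : ‖v - 1‖ ≤ C * η := hv1.trans (mul_le_mul_of_nonneg_left hAB hC0.le)
        obtain ⟨R, hR, hR0, hR1, hRθ⟩ := piece hC hLK hp' hη.le (hp'.mul hv).ap
          (δ := C * η) (by
            rw [norm_sub_rev]
            exact (norm_mul_sub_le hp'.1).trans hvn) hAB (by linarith) le_rfl
        refine ⟨R, hR, hR0, fun _ => ?_, fun θ hθ hx => ?_⟩
        · rw [Nat.cast_succ]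
          exact hR1.1
        · obtain ⟨⟨P, hP, hPA⟩, -⟩ := hRθ θ hθ
          have hs'' : ((n : ℝ) + θ) / N ∈ Icc (0 : ℝ) 1 :=
            ⟨div_nonneg (by linarith [hθ.1]) hN0.le, by rw [div_le_one hN0]; exact hx⟩
          have h5 : kkDist (M (n / N)) (M ((n + θ) / N)) ≤ η := hUC _ hs _ hs'' (by
            rw [← sub_div, abs_div, abs_of_pos hN0]
            have : (n : ℝ) - (n + θ) = -θ := by ring
            rw [this, abs_neg, abs_of_nonneg hθ.1]
            exact div_le_div_of_nonneg_right hθ.2 hN0.le)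
          refine ⟨hP.1, P, hP, (kkDist_tri P _ _).trans ((add_le_add hPA h5).trans ?_)⟩
          linarith
      · refine ⟨fun _ => 1, continuous_const, rfl, fun h => absurd h hn, fun θ hθ hx => ?_⟩
        have h1 : (n : ℝ) ≤ N := by linarith [hθ.1]
        have h2 : n = N := le_antisymm (by exact_mod_cast h1) (by omega)
        have hθ0 : θ = 0 := by
          subst h2
          linarith [hθ.1]
        rw [hθ0, add_zero, one_mul]
        exact (hp h2.le).ap.mono hε'.le) N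
  refine ⟨fun t => F (N * t), hF.comp (continuous_const.mul continuous_id), by
    simpa using hF0, fun t ht => ?_⟩
  have h1 : (N : ℝ) * t ≤ N := by nlinarith [ht.2]
  have h2 := hQ (N * t) ⟨mul_nonneg hN0.le ht.1, h1⟩ h1
  rwa [mul_div_cancel_left₀ _ hN0.ne'] at h2

theorem improve (hC : 1 ≤ C) (hLK : LK H C) {M : ℝ → VonNeumannAlgebra H} (hM : UC M) {ε : ℝ}
    (hε : 0 < ε) (hεs : 24 * (C * ε) ≤ 1) {u : ℝ → (H →L[ℂ] H)} (hu : Continuous u)
    (hu0 : u 0 = 1) (hap : ∀ t ∈ Icc (0 : ℝ) 1, Ap (M 0) (M t) ε (u t)) {ε' : ℝ} (hε' : 0 < ε') :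
    ∃ u' : ℝ → (H →L[ℂ] H), Continuous u' ∧ u' 0 = 1 ∧
      (∀ t ∈ Icc (0 : ℝ) 1, Ap (M 0) (M t) ε' (u' t)) ∧
      ∀ t ∈ Icc (0 : ℝ) 1, ‖u' t - u t‖ ≤ 7 * (C * ε) := by
  have hC0 : 0 < C := by linarith
  set η : ℝ := min (ε' / (3 * C)) ε with hηd
  have hη : 0 < η := by rw [hηd]; positivity
  have hη1 : 3 * C * η ≤ ε' := by
    have : η ≤ ε' / (3 * C) := min_le_left _ _
    rw [le_div_iff₀ (by positivity)] at this
    linarith
  have hη2 : C * η ≤ C * ε := mul_le_mul_of_nonneg_left (min_le_right _ _) hC0.le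
  have hεC : ε ≤ C * ε := by nlinarith
  have hηC : η ≤ C * η := by nlinarith
  obtain ⟨N₁, hN₁, hUC₁⟩ := hM η hη
  obtain ⟨N₂, hN₂, hUC₂⟩ := exists_step (f := u) hu.continuousOn hε
  obtain ⟨hs1, hs2⟩ := step_mul hN₁ hN₂
  set N := N₁ * N₂ with hNd
  have hN : 0 < N := Nat.mul_pos hN₁ hN₂
  have hUC : ∀ s ∈ Icc (0 : ℝ) 1, ∀ t ∈ Icc (0 : ℝ) 1, |s - t| ≤ 1 / N →
      kkDist (M s) (M t) ≤ η ∧ ‖u s - u t‖ ≤ ε := fun s hs t ht hst =>
    ⟨hUC₁ s hs t ht (hst.trans hs1), by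
      rw [← dist_eq_norm]
      exact hUC₂ s hs t ht (hst.trans hs2)⟩
  have hN0 : (0 : ℝ) < N := by exact_mod_cast hN
  have hCη : 0 < C * η := by positivity
  obtain ⟨F, hF, hF0, -, hQ⟩ := glue (A := H →L[ℂ] H)
    (fun n p => n ≤ N → Ex (M 0) (M (n / N)) p ∧ ‖p - u (n / N)‖ ≤ C * ε)
    (fun x p => x ≤ N → Ap (M 0) (M (x / N)) ε' p ∧ ‖p - u (x / N)‖ ≤ 7 * (C * ε)) 1
    (fun _ => by
      rw [Nat.cast_zero, zero_div, hu0, sub_self, norm_zero]
      exact ⟨Ex.one _, by linarith⟩)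
    (fun _ => by
      rw [zero_div, hu0, sub_self, norm_zero]
      exact ⟨(Ex.one _).ap.mono hε'.le, by linarith⟩)
    (fun n p hp => by
      by_cases hn : n + 1 ≤ N
      · obtain ⟨hp', hpu⟩ := hp (by omega)
        have hnN : ((n : ℝ) + 1) ≤ N := by exact_mod_cast hn
        have hn0 : (0 : ℝ) ≤ n := Nat.cast_nonneg n
        have hs : (n : ℝ) / N ∈ Icc (0 : ℝ) 1 :=
          ⟨by positivity, by rw [div_le_one hN0]; linarith⟩
        have hs' : ((n : ℝ) + 1) / N ∈ Icc (0 : ℝ) 1 :=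
          ⟨by positivity, by rw [div_le_one hN0]; linarith⟩
        obtain ⟨hAB, huu⟩ := hUC _ hs _ hs' (by
          rw [← sub_div, abs_div, abs_of_pos hN0]
          have : (n : ℝ) - (n + 1) = -1 := by ring
          rw [this, abs_neg, abs_one])
        obtain ⟨R, hR, hR0, hR1, hRθ⟩ := piece hC hLK hp' hη.le (hap _ hs')
          (δ := C * ε + ε) (by
            calc ‖p - u ((n + 1) / N)‖
                = ‖(p - u (n / N)) + (u (n / N) - u ((n + 1) / N))‖ := by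
                  rw [sub_add_sub_cancel]
              _ ≤ ‖p - u (n / N)‖ + ‖u (n / N) - u ((n + 1) / N)‖ := norm_add_le _ _
              _ ≤ C * ε + ε := add_le_add hpu huu) hAB (by linarith) hε.le
        refine ⟨R, hR, hR0, fun _ => ?_, fun θ hθ hx => ?_⟩
        · rw [Nat.cast_succ]
          exact hR1
        · obtain ⟨⟨P, hP, hPA⟩, hRn⟩ := hRθ θ hθ
          have hs'' : ((n : ℝ) + θ) / N ∈ Icc (0 : ℝ) 1 :=
            ⟨div_nonneg (by linarith [hθ.1]) hN0.le, by rw [div_le_one hN0]; exact hx⟩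
          obtain ⟨h5, h6⟩ := hUC _ hs _ hs'' (by
            rw [← sub_div, abs_div, abs_of_pos hN0]
            have : (n : ℝ) - (n + θ) = -θ := by ring
            rw [this, abs_neg, abs_of_nonneg hθ.1]
            exact div_le_div_of_nonneg_right hθ.2 hN0.le)
          refine ⟨⟨hP.1, P, hP, (kkDist_tri P _ _).trans ((add_le_add hPA h5).trans ?_)⟩, ?_⟩
          · linarith
          · calc ‖R θ * p - u ((n + θ) / N)‖
                = ‖(R θ * p - p) + ((p - u (n / N)) + (u (n / N) - u ((n + θ) / N)))‖ := by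
                  rw [sub_add_sub_cancel, sub_add_sub_cancel]
              _ ≤ ‖R θ * p - p‖ + (‖p - u (n / N)‖ + ‖u (n / N) - u ((n + θ) / N)‖) :=
                  (norm_add_le _ _).trans (add_le_add le_rfl (norm_add_le _ _))
              _ ≤ 7 * (C * ε) := by linarith
      · refine ⟨fun _ => 1, continuous_const, rfl, fun h => absurd h hn, fun θ hθ hx => ?_⟩
        have h1 : (n : ℝ) ≤ N := by linarith [hθ.1]
        have h2 : n = N := le_antisymm (by exact_mod_cast h1) (by omega)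
        have hθ0 : θ = 0 := by
          rw [h2] at hx
          linarith [hθ.1]
        rw [hθ0, add_zero, one_mul]
        obtain ⟨hp', hpu⟩ := hp h2.le
        exact ⟨hp'.ap.mono hε'.le, by linarith⟩) N
  refine ⟨fun t => F (N * t), hF.comp (continuous_const.mul continuous_id), by
    simpa using hF0, ?_, ?_⟩
  · intro t ht
    have h1 : (N : ℝ) * t ≤ N := by nlinarith [ht.2]
    have h2 := (hQ (N * t) ⟨mul_nonneg hN0.le ht.1, h1⟩ h1).1
    rwa [mul_div_cancel_left₀ _ hN0.ne'] at h2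
  · intro t ht
    have h1 : (N : ℝ) * t ≤ N := by nlinarith [ht.2]
    have h2 := (hQ (N * t) ⟨mul_nonneg hN0.le ht.1, h1⟩ h1).2
    rwa [mul_div_cancel_left₀ _ hN0.ne'] at h2

end

end Vale.Agent.P096.H424
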