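import Vale.Agent.P096.H424.Dist
import Vale.Agent.P096.Bd8.B4

/-!
# P096: close representations are unitarily equivalent by a unitary close to `1`
-/

open Set
open scoped InnerProductSpace

namespace Vale.Agent.P096.H424

universe u v

variable {H : Type u} [NormedAddCommGroup H] [InnerProductSpace ℂ H] [CompleteSpace H]
  {D : Type v} [NonUnitalCStarAlgebra D]

/-- the operator `(x, y) ↦ (0, x)` -/
noncomputable def shiftDown (H : Type u) [NormedAddCommGroup H] [InnerProductSpace ℂ H] :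
    Sm 2 H →L[ℂ] Sm 2 H :=
  inc 1 ∘L (PiLp.proj 2 (fun _ : Fin 2 => H) 0 : Sm 2 H →L[ℂ] H)

omit [CompleteSpace H] in
theorem shiftDown_apply (ξ : Sm 2 H) : shiftDown H ξ = inc 1 (ξ 0) := rfl

theorem close_reps (π ρ : D →⋆ₙₐ[ℂ] (H →L[ℂ] H)) {ε : ℝ} (hε : 0 ≤ ε)
    (h : ∀ a, ‖π a - ρ a‖ ≤ ε * ‖a‖) (hs : 2 * KD * ε ≤ 1) :
    ∃ u ∈ unitary (H →L[ℂ] H), ‖u - 1‖ ≤ 2 * KD * ε ∧ ∀ a, ρ a = u * π a * star u := by
  have hK : KD * ε < 1 := by
    have := mul_nonneg KD_pos.le hε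
    linarith
  let σ : D →⋆ₙₐ[ℂ] (Sm 2 H →L[ℂ] Sm 2 H) := diagHom ![π, ρ]
  have hσ0 : ∀ a (x : H), σ a (inc 0 x) = inc 0 (π a x) := fun a x => diagF_inc _ 0 x
  have hσ1 : ∀ a (x : H), σ a (inc 1 x) = inc 1 (ρ a x) := fun a x => diagF_inc _ 1 x
  obtain ⟨S, hS, hTS⟩ := Vale.Agent.P104.H409.dist_bound σ (shiftDown H) hε (by
    intro a
    refine ContinuousLinearMap.opNorm_le_bound _ (by positivity) fun ξ => ?_
    have e : (σ a * shiftDown H - shiftDown H * σ a) ξ = inc 1 ((ρ a - π a) (ξ 0)) := by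
      change σ a (shiftDown H ξ) - shiftDown H (σ a ξ) = _
      rw [shiftDown_apply, shiftDown_apply, hσ1, ← map_sub]
      rfl
    rw [e, norm_inc]
    calc ‖(ρ a - π a) (ξ 0)‖ ≤ ‖ρ a - π a‖ * ‖ξ 0‖ := (ρ a - π a).le_opNorm _
      _ ≤ (ε * ‖a‖) * ‖ξ‖ := by
        refine mul_le_mul ?_ (norm_coord_le ξ 0) (norm_nonneg _) (by positivity)
        rw [norm_sub_rev]
        exact h a)
  set s : H →L[ℂ] H := ent S 1 0 with hsdef
  have hs1 : ‖s - 1‖ ≤ KD * ε := by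
    refine ContinuousLinearMap.opNorm_le_bound _ ((norm_nonneg _).trans hTS) fun x => ?_
    have e : (s - 1) x = - ((shiftDown H - S) (inc 0 x)) 1 := by
      change S (inc 0 x) 1 - x = - (shiftDown H (inc 0 x) 1 - S (inc 0 x) 1)
      rw [shiftDown_apply, inc_same, inc_same]
      abel
    rw [e, norm_neg]
    calc ‖((shiftDown H - S) (inc 0 x)) 1‖ ≤ ‖(shiftDown H - S) (inc 0 x)‖ := norm_coord_le _ 1
      _ ≤ ‖shiftDown H - S‖ * ‖(inc 0 x : Sm 2 H)‖ := (shiftDown H - S).le_opNorm _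
      _ ≤ (KD * ε) * ‖x‖ := by
        rw [norm_inc]
        exact mul_le_mul_of_nonneg_right hTS (norm_nonneg _)
  have hint : ∀ a, s * π a = ρ a * s := by
    intro a
    ext x
    have h1 := congrArg (fun R : Sm 2 H →L[ℂ] Sm 2 H => R (inc 0 x) 1) (hS a)
    change σ a (S (inc 0 x)) 1 = S (σ a (inc 0 x)) 1 at h1
    rw [hσ0] at h1
    exact h1.symm
  obtain ⟨u, hu1, hu2, hun, huc⟩ := Vale.Agent.P096.exists_unitary_part s (KD * ε) hK hs1
  refine ⟨u, ⟨hu1, hu2⟩, hun.trans (le_of_eq (by ring)), fun a => ?_⟩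
  have h2 : u * π a = ρ a * u := huc _ _ (hint a) (by
    rw [← map_star, ← map_star]
    exact hint _)
  rw [h2, mul_assoc, hu2, mul_one]

end Vale.Agent.P096.H424
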